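import Vale.Agent.P046.Model

/-!
Exact one-slot identities for the presence probabilities.
-/

namespace Vale.Agent.P046

open Finset
open scoped Classical

namespace Sys

variable {V : Type} (Y : Sys V)

/-- The indicator of a configuration. -/
noncomputable def okI (en : Finset ℕ) (x : Y.Labels) (B : Conf V) : ℝ :=
  if Y.Ok en x B then 1 else 0

lemma okI_congr {e e' : Finset ℕ} {x x' : Y.Labels} {B B' : Conf V}
    (h : Y.Ok e x B ↔ Y.Ok e' x' B') : Y.okI e x B = Y.okI e' x' B' := by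
  unfold okI
  exact if_congr h rfl rfl

lemma pr_eq (en : Finset ℕ) (B : Conf V) :
    Y.pr en B = (∑ x : Y.Labels, Y.okI en x B) / (Y.M : ℝ) ^ Y.N := rfl

lemma pr_nonneg (en : Finset ℕ) (B : Conf V) : 0 ≤ Y.pr en B := by
  rw [pr_eq]
  exact div_nonneg (Finset.sum_nonneg fun x _ => by unfold okI; split <;> norm_num) (by positivity)

lemma card_labels : (Fintype.card Y.Labels : ℝ) = (Y.M : ℝ) ^ Y.N := by
  simp [Labels]

lemma pr_le_one (en : Finset ℕ) (B : Conf V) : Y.pr en B ≤ 1 := by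
  have hM : (0 : ℝ) < Y.M := by exact_mod_cast Y.hM
  rw [pr_eq, div_le_one (by positivity)]
  calc ∑ x : Y.Labels, Y.okI en x B ≤ ∑ _x : Y.Labels, (1 : ℝ) :=
        Finset.sum_le_sum fun x _ => by unfold okI; split <;> norm_num
    _ = (Y.M : ℝ) ^ Y.N := by
        rw [Finset.sum_const, nsmul_eq_mul, mul_one, Finset.card_univ, card_labels]

lemma pr_zero (en : Finset ℕ) : Y.pr en (fun _ => 0) = 1 := by
  have hM : (0 : ℝ) < Y.M := by exact_mod_cast Y.hM
  have h : ∀ x, Y.okI en x (fun _ => 0) = 1 := fun x => by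
    simp [okI, Ok, gone_zero]
  rw [pr_eq, Finset.sum_congr rfl fun x _ => h x, Finset.sum_const, nsmul_eq_mul, mul_one,
    Finset.card_univ, card_labels, div_self (by positivity)]

lemma ok_mono {en : Finset ℕ} {x : Y.Labels} {B B' : Conf V} (h : ∀ g, B' g ≤ B g)
    (hB : Y.Ok en x B) : Y.Ok en x B' := fun g hg => hB g (Y.gone_mono en x (h g) hg)

lemma pr_anti {en : Finset ℕ} {B B' : Conf V} (h : ∀ g, B' g ≤ B g) : Y.pr en B ≤ Y.pr en B' := by
  rw [pr_eq, pr_eq]
  refine div_le_div_of_nonneg_right (Finset.sum_le_sum fun x _ => ?_) (by positivity)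
  unfold okI
  by_cases hB : Y.Ok en x B
  · rw [if_pos hB, if_pos (Y.ok_mono h hB)]
  · rw [if_neg hB]
    split <;> norm_num

lemma ok_addS (en : Finset ℕ) (x : Y.Labels) (B : Conf V) (T : Finset V) (s : ℕ) :
    Y.Ok en x (addS B T s) ↔ Y.Ok en x B ∧ Disjoint T (Y.gone en x s) := by
  constructor
  · intro h
    refine ⟨Y.ok_mono (fun g => ?_) h, Finset.disjoint_left.2 fun g hg hgone => h g ?_⟩
    · unfold addS; split <;> simp
    · simp only [addS, if_pos hg]
      exact Y.gone_mono en x (le_max_right _ _) hgone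
  · rintro ⟨h, hd⟩ g
    unfold addS
    split
    · next hg =>
      rcases le_total (B g) s with hle | hle
      · rw [max_eq_right hle]; exact Finset.disjoint_left.1 hd hg
      · rw [max_eq_left hle]; exact h g
    · exact h g

lemma sum_hit_mul {s : ℕ} (hs : s < Y.M * Y.N) (F : Y.Labels → ℝ)
    (hF : ∀ x c, F (Function.update x (Y.tr s) c) = F x) :
    ∑ x : Y.Labels, (if Y.Hit x s then F x else 0) = (∑ x : Y.Labels, F x) / Y.M := by
  have hl : s / Y.N < Y.M := Nat.div_lt_of_lt_mul (by rwa [mul_comm] at hs)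
  set T := Y.tr s with hT
  set c₀ : Fin Y.M := ⟨s / Y.N, hl⟩ with hc₀
  have hhit : ∀ x : Y.Labels, Y.Hit x s ↔ x T = c₀ := fun x => by
    simp [Hit, hc₀, Fin.ext_iff, ← hT]
  set e := Equiv.funSplitAt T (Fin Y.M) with he
  have hF' : ∀ (c : Fin Y.M) (r : {j // j ≠ T} → Fin Y.M), F (e.symm (c, r)) = F (e.symm (c₀, r)) := by
    intro c r
    rw [← hF (e.symm (c₀, r)) c]
    congr 1
    funext j
    rcases eq_or_ne j T with rfl | hj
    · simp [e, Equiv.funSplitAt]
    · simp [e, Equiv.funSplitAt, hj]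
  rw [← e.symm.sum_comp, ← e.symm.sum_comp, Fintype.sum_prod_type, Fintype.sum_prod_type]
  have h2 : ∀ c : Fin Y.M, ∑ r, F (e.symm (c, r)) = ∑ r, F (e.symm (c₀, r)) :=
    fun c => Finset.sum_congr rfl fun r _ => hF' c r
  have hM : (Y.M : ℝ) ≠ 0 := by exact_mod_cast Y.hM.ne'
  rw [Finset.sum_congr rfl fun c _ => h2 c, Finset.sum_const, nsmul_eq_mul, Finset.card_univ,
    Fintype.card_fin, mul_div_cancel_left₀ _ hM, Finset.sum_eq_single c₀]
  · refine Finset.sum_congr rfl fun r _ => if_pos ((hhit _).2 ?_)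
    simp [e, Equiv.funSplitAt]
  · intro c _ hc
    refine Finset.sum_eq_zero fun r _ => if_neg fun h => hc ?_
    have := (hhit _).1 h
    simpa [e, Equiv.funSplitAt] using this
  · simp

lemma mem_drop {en : Finset ℕ} {T : Fin Y.N} {j : ℕ} : j ∈ Y.drop en T ↔ j ∈ en ∧ Y.tr j ≠ T :=
  Finset.mem_filter

lemma mem_after {en : Finset ℕ} {s j : ℕ} :
    j ∈ Y.after en s ↔ j ∈ en ∧ ¬ (s < j ∧ ¬ Disjoint (Y.eds j) (Y.eds s)) := Finset.mem_filter

lemma mem_cut {en : Finset ℕ} {g : V} {a j : ℕ} :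
    j ∈ Y.cut en g a ↔ j ∈ en ∧ ¬ (g ∈ Y.eds j ∧ a ≤ j) := Finset.mem_filter

/-- The first term of the insertion identity. -/
noncomputable def insTerm (en : Finset ℕ) (B : Conf V) (s : ℕ) : ℝ :=
  (if ∀ g ∈ Y.eds s, B g ≤ s then
    Y.pr (Y.after (Y.drop en (Y.tr s)) s) (addS B (Y.eds s) s) else 0) -
  Y.pr (Y.drop en (Y.tr s)) (addS B (Y.eds s) s)

lemma okI_insert {en : Finset ℕ} {x : Y.Labels} {B : Conf V} {s : ℕ} (hs : s ∉ en) :
    Y.okI (insert s en) x B - Y.okI en x B =
      if Y.Hit x s then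
        (if ∀ g ∈ Y.eds s, B g ≤ s then
          Y.okI (Y.after (Y.drop en (Y.tr s)) s) x (addS B (Y.eds s) s) else 0) -
        Y.okI (Y.drop en (Y.tr s)) x (addS B (Y.eds s) s)
      else 0 := by
  by_cases hh : Y.Hit x s
  swap
  · have : ∀ t, Y.gone (insert s en) x t = Y.gone en x t := Y.gone_insert_of_not fun h => hh h.1
    rw [if_neg hh, Y.okI_congr (x' := x) (B' := B) (e' := en) (by simp [Ok, this]), sub_self]
  rw [if_pos hh]
  have hne : ∀ j ∈ en, Y.Hit x j → Y.tr j ≠ Y.tr s := fun j hj hjh ht =>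
    hs (Y.hit_unique hh hjh ht ▸ hj)
  have hdrop : ∀ t, Y.gone (Y.drop en (Y.tr s)) x t = Y.gone en x t := fun t =>
    Y.gone_congr fun j _ hjh => ⟨fun h => (Y.mem_drop.1 h).1, fun h => Y.mem_drop.2 ⟨h, hne j h hjh⟩⟩
  have hafter : ∀ t, Y.gone (Y.after (Y.drop en (Y.tr s)) s) x t = Y.gone (Y.after en s) x t :=
    fun t => Y.gone_congr fun j _ hjh => by
      simp only [mem_after, mem_drop]
      exact ⟨fun h => ⟨h.1.1, h.2⟩, fun h => ⟨⟨h.1, hne j h.1 hjh⟩, h.2⟩⟩
  have hpre : ∀ t ≤ s, Y.gone (Y.after en s) x t = Y.gone en x t := fun t ht =>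
    Y.gone_congr fun j hj _ => by
      simp only [mem_after]
      exact ⟨fun h => h.1, fun h => ⟨h, fun hc => by omega⟩⟩
  by_cases hd : Disjoint (Y.eds s) (Y.gone en x s)
  · have h1 : Y.Ok (Y.drop en (Y.tr s)) x (addS B (Y.eds s) s) ↔ Y.Ok en x B := by
      rw [ok_addS, hdrop]
      simp [Ok, hdrop, hd]
    have h2 : Y.Ok (Y.after (Y.drop en (Y.tr s)) s) x (addS B (Y.eds s) s) ↔
        Y.Ok (Y.after en s) x B := by
      rw [ok_addS, hafter, hpre s le_rfl]
      simp [Ok, hafter, hd]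
    have hle : ∀ t ≤ s, Y.gone (insert s en) x t = Y.gone en x t := fun t ht =>
      Y.gone_congr fun j hj _ => by simp [show j ≠ s by omega]
    have h3 : Y.Ok (insert s en) x B ↔ (∀ g ∈ Y.eds s, B g ≤ s) ∧ Y.Ok (Y.after en s) x B := by
      constructor
      · intro h
        refine ⟨fun g hg => not_lt.1 fun hlt => h g ?_, fun g => ?_⟩
        · rw [Y.gone_insert_of_fire hs hh hd _ hlt]
          exact Finset.mem_union_right _ hg
        · rcases le_or_gt (B g) s with hle' | hlt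
          · have := h g
            rwa [hle _ hle', ← hpre _ hle'] at this
          · have := h g
            rw [Y.gone_insert_of_fire hs hh hd _ hlt] at this
            exact fun hm => this (Finset.mem_union_left _ hm)
      · rintro ⟨hc, h⟩ g
        rcases le_or_gt (B g) s with hle' | hlt
        · rw [hle _ hle', ← hpre _ hle']; exact h g
        · rw [Y.gone_insert_of_fire hs hh hd _ hlt, Finset.mem_union, not_or]
          exact ⟨h g, fun hg => absurd (hc g hg) (by omega)⟩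
    unfold okI
    by_cases hc : ∀ g ∈ Y.eds s, B g ≤ s
    · rw [if_pos hc, if_congr h3 rfl rfl, if_congr h1 rfl rfl, if_congr h2 rfl rfl,
        if_congr (and_iff_right hc) rfl rfl]
    · rw [if_neg hc, if_congr h3 rfl rfl, if_congr h1 rfl rfl, if_neg fun h => hc h.1]
  · have h1 : ¬ Y.Ok (Y.drop en (Y.tr s)) x (addS B (Y.eds s) s) := by
      rw [ok_addS, hdrop]; exact fun h => hd h.2
    have h2 : ¬ Y.Ok (Y.after (Y.drop en (Y.tr s)) s) x (addS B (Y.eds s) s) := by
      rw [ok_addS, hafter, hpre s le_rfl]; exact fun h => hd h.2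
    have : ∀ t, Y.gone (insert s en) x t = Y.gone en x t := Y.gone_insert_of_not fun h => hd h.2
    have h3 : Y.okI (insert s en) x B = Y.okI en x B := Y.okI_congr (by simp [Ok, this])
    rw [h3]
    simp [okI, h1, h2]

/-- The effect of enabling one slot. -/
theorem pr_insert {en : Finset ℕ} {B : Conf V} {s : ℕ} (hs : s ∉ en) (hlt : s < Y.M * Y.N) :
    Y.pr (insert s en) B - Y.pr en B = Y.insTerm en B s / Y.M := by
  have hup : ∀ (e : Finset ℕ), (∀ j ∈ e, Y.tr j ≠ Y.tr s) → ∀ (x : Y.Labels) c (B' : Conf V),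
      Y.okI e (Function.update x (Y.tr s) c) B' = Y.okI e x B' := fun e he x c B' =>
    Y.okI_congr (by simp [Ok, Y.gone_update x (Y.tr s) c he])
  have hd : ∀ j ∈ Y.drop en (Y.tr s), Y.tr j ≠ Y.tr s := fun j hj => (Y.mem_drop.1 hj).2
  have ha : ∀ j ∈ Y.after (Y.drop en (Y.tr s)) s, Y.tr j ≠ Y.tr s := fun j hj =>
    hd j (Y.mem_after.1 hj).1
  rw [pr_eq, pr_eq, ← sub_div, ← Finset.sum_sub_distrib,
    Finset.sum_congr rfl fun x _ => Y.okI_insert (x := x) (B := B) hs,
    Y.sum_hit_mul hlt _ fun x c => by rw [hup _ ha, hup _ hd], div_right_comm]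
  congr 1
  unfold insTerm
  simp only [pr_eq]
  rw [Finset.sum_sub_distrib, sub_div]
  congr 1
  by_cases hc : ∀ g ∈ Y.eds s, B g ≤ s
  · rw [if_pos hc]
    exact congrArg (· / _) (Finset.sum_congr rfl fun x _ => if_pos hc)
  · rw [if_neg hc, Finset.sum_eq_zero fun x _ => if_neg hc, zero_div]

lemma cut_succ (en : Finset ℕ) (g : V) (s : ℕ) :
    Y.cut en g (s + 1) =
      if s ∈ en ∧ g ∈ Y.eds s then insert s (Y.cut en g s) else Y.cut en g s := by
  ext j
  by_cases hc : s ∈ en ∧ g ∈ Y.eds s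
  · rw [if_pos hc, Finset.mem_insert, mem_cut, mem_cut]
    rcases eq_or_ne j s with rfl | hne
    · simp [hc.1]
    · simp only [hne, false_or, and_congr_right_iff]
      intro _
      rw [not_iff_not]
      exact and_congr_right fun _ => by omega
  · rw [if_neg hc, mem_cut, mem_cut]
    refine and_congr_right fun hj => ?_
    rw [not_iff_not]
    refine and_congr_right fun hg => ⟨fun h => by omega, fun h => ?_⟩
    by_contra hlt
    obtain rfl : j = s := by omega
    exact hc ⟨hj, hg⟩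

lemma cut_of_bound {en : Finset ℕ} {S : ℕ} (h : ∀ j ∈ en, j < S) (g : V) : Y.cut en g S = en := by
  ext j
  rw [mem_cut]
  exact ⟨fun hj => hj.1, fun hj => ⟨hj, fun hc => absurd hc.2 (by have := h j hj; omega)⟩⟩

lemma notMem_cut (en : Finset ℕ) (g : V) {s : ℕ} (hg : g ∈ Y.eds s) : s ∉ Y.cut en g s :=
  fun h => (Y.mem_cut.1 h).2 ⟨hg, le_rfl⟩

/-- The effect of silencing the triangles through `g` from slot `a` on. -/
theorem pr_cut {en : Finset ℕ} (hen : ∀ j ∈ en, j < Y.M * Y.N) (B : Conf V) (g : V) {a : ℕ}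
    (ha : a ≤ Y.M * Y.N) :
    Y.pr (Y.cut en g a) B - Y.pr en B =
      - ∑ s ∈ (Finset.Ico a (Y.M * Y.N)).filter (fun s => s ∈ en ∧ g ∈ Y.eds s),
        Y.insTerm (Y.cut en g s) B s / Y.M := by
  conv_lhs => rw [← Y.cut_of_bound hen g]
  rw [Y.cut_of_bound hen g]
  have key : ∀ s ∈ Finset.Ico a (Y.M * Y.N),
      Y.pr (Y.cut en g (s + 1)) B - Y.pr (Y.cut en g s) B =
        if s ∈ en ∧ g ∈ Y.eds s then Y.insTerm (Y.cut en g s) B s / Y.M else 0 := by
    intro s hs
    rw [cut_succ]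
    by_cases hc : s ∈ en ∧ g ∈ Y.eds s
    · rw [if_pos hc, if_pos hc]
      exact Y.pr_insert (Y.notMem_cut en g hc.2) (Finset.mem_Ico.1 hs).2
    · rw [if_neg hc, if_neg hc, sub_self]
  rw [Finset.sum_filter, ← Finset.sum_congr rfl key]
  have := Finset.sum_Ico_sub (fun s => Y.pr (Y.cut en g s) B) ha
  rw [this, Y.cut_of_bound hen g]
  ring

lemma gone_succ_of_notMem {e : Finset ℕ} {l : ℕ} (hl : l ∉ e) (x : Y.Labels) :
    Y.gone e x (l + 1) = Y.gone e x l := by
  rw [gone_succ, if_neg fun h => hl h.1]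

lemma addE_self (B : Conf V) (g : V) (r : ℕ) : addE B g r g = max (B g) r := if_pos rfl

lemma addE_ne (B : Conf V) {g f : V} (r : ℕ) (h : f ≠ g) : addE B g r f = B f := if_neg h

lemma ok_addE_succ {e : Finset ℕ} {l : ℕ} (hl : l ∉ e) (x : Y.Labels) {B : Conf V} {g : V}
    (hB : B g ≤ l) : Y.Ok e x (addE B g (l + 1)) ↔ Y.Ok e x (addE B g l) := by
  constructor <;> intro h f <;> have := h f <;> by_cases hf : f = g
  · subst hf
    rw [addE_self, max_eq_right (by omega)] at this
    rw [addE_self, max_eq_right hB, ← Y.gone_succ_of_notMem hl]; exact this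
  · rwa [addE_ne _ _ hf] at this ⊢
  · subst hf
    rw [addE_self, max_eq_right hB] at this
    rw [addE_self, max_eq_right (by omega), Y.gone_succ_of_notMem hl]; exact this
  · rwa [addE_ne _ _ hf] at this ⊢

/-- The exact hierarchy: the loss when the requirement on `g` moves by one slot. -/
theorem pr_step {en : Finset ℕ} {B : Conf V} {g : V} {l : ℕ} (hB : B g ≤ l)
    (hlt : l < Y.M * Y.N) :
    Y.pr en (addE B g l) - Y.pr en (addE B g (l + 1)) =
      if l ∈ en ∧ g ∈ Y.eds l ∧ ∀ f ∈ Y.eds l, B f ≤ l then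
        Y.pr (Y.after (Y.drop en (Y.tr l)) l) (addS B (Y.eds l) l) / Y.M else 0 := by
  by_cases hl : l ∈ en
  swap
  · rw [if_neg fun h => hl h.1]
    simp only [pr_eq, okI, Y.ok_addE_succ hl _ hB, sub_self]
  by_cases hg : g ∈ Y.eds l
  swap
  · rw [if_neg fun h => hg h.2.1]
    have : ∀ x, Y.Ok en x (addE B g (l + 1)) ↔ Y.Ok en x (addE B g l) := fun x => by
      refine forall_congr' fun f => ?_
      by_cases hf : f = g
      · subst hf
        rw [addE_self, addE_self, max_eq_right hB, max_eq_right (by omega), gone_succ]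
        split
        · simp [hg]
        · rfl
      · rw [addE_ne _ _ hf, addE_ne _ _ hf]
    simp only [pr_eq, okI, this, sub_self]
  have he : l ∉ en.erase l := Finset.notMem_erase l en
  have h1 := Y.pr_insert (B := addE B g l) he hlt
  have h2 := Y.pr_insert (B := addE B g (l + 1)) he hlt
  rw [Finset.insert_erase hl] at h1 h2
  have hsame : Y.pr (en.erase l) (addE B g (l + 1)) = Y.pr (en.erase l) (addE B g l) := by
    simp only [pr_eq, okI, Y.ok_addE_succ he _ hB]
  have hdrop : Y.drop (en.erase l) (Y.tr l) = Y.drop en (Y.tr l) := by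
    ext j
    simp only [mem_drop, Finset.mem_erase]
    exact ⟨fun h => ⟨h.1.2, h.2⟩, fun h => ⟨⟨fun hj => h.2 (hj ▸ rfl), h.1⟩, h.2⟩⟩
  have hadd : addS (addE B g l) (Y.eds l) l = addS B (Y.eds l) l := by
    funext f
    by_cases hf : f = g
    · subst hf; simp [addS, addE, hg]
    · simp [addS, addE_ne _ _ hf]
  have hadd' : addS (addE B g (l + 1)) (Y.eds l) l = addE (addS B (Y.eds l) l) g (l + 1) := by
    funext f
    by_cases hf : f = g
    · subst hf; simp [addS, addE, hg]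
    · simp [addS, addE_ne _ _ hf]
  have hBg : addS B (Y.eds l) l g ≤ l := by simp [addS, hg, hB]
  have hdl : l ∉ Y.drop en (Y.tr l) := fun h => (Y.mem_drop.1 h).2 rfl
  have hminus : Y.pr (Y.drop en (Y.tr l)) (addE (addS B (Y.eds l) l) g (l + 1)) =
      Y.pr (Y.drop en (Y.tr l)) (addS B (Y.eds l) l) := by
    simp only [pr_eq, okI, Y.ok_addE_succ hdl _ hBg]
    refine congrArg (· / _) (Finset.sum_congr rfl fun x _ => ?_)
    have : addE (addS B (Y.eds l) l) g l = addS B (Y.eds l) l := by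
      funext f
      by_cases hf : f = g
      · subst hf; simp [addE, addS, hg]
      · rw [addE_ne _ _ hf]
    rw [this]
  have hc2 : ¬ ∀ f ∈ Y.eds l, addE B g (l + 1) f ≤ l := fun h => by
    have := h g hg
    rw [addE_self] at this
    omega
  have hc1 : (∀ f ∈ Y.eds l, addE B g l f ≤ l) ↔ ∀ f ∈ Y.eds l, B f ≤ l := by
    refine forall₂_congr fun f _ => ?_
    by_cases hf : f = g
    · subst hf; rw [addE_self]; omega
    · rw [addE_ne _ _ hf]
  unfold insTerm at h1 h2
  rw [hdrop, hadd] at h1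
  rw [hdrop, hadd', hminus, if_neg hc2] at h2
  simp only [hc1] at h1
  by_cases hc : ∀ f ∈ Y.eds l, B f ≤ l
  · rw [if_pos ⟨hl, hg, hc⟩]
    rw [if_pos hc, sub_div] at h1
    rw [zero_sub, neg_div] at h2
    linarith
  · rw [if_neg fun h => hc h.2.2]
    rw [if_neg hc] at h1
    linarith

end Sys

end Vale.Agent.P046
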