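import Vale.Agent.P046.Process

/-!
# P046: expectations, stopping and drift-to-tail bounds for random triangle removal

`EvUntil stop ψ G` is the expectation of `ψ` at the first state satisfying `stop`, or at the
final state if there is none. `Ev` is the case without stopping. All bounds are by super- or
sub-harmonic comparison along the recursion.
-/

namespace Vale.Agent.P046

open Finset
open scoped Classical

variable {n : ℕ} {G G0 : Finset (Sym2 (Fin n))}

/-- The average of `f` over the states reachable in one step. -/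
noncomputable def childAvg (f : Finset (Sym2 (Fin n)) → ℝ) (G : Finset (Sym2 (Fin n))) : ℝ :=
  (∑ T ∈ triangles G, f (G \ edgesOf T)) / (triangles G).card

/-- The expectation of `ψ` at the first state satisfying `stop`, or at the final state. -/
noncomputable def EvUntil (stop : Finset (Sym2 (Fin n)) → Prop) (ψ : Finset (Sym2 (Fin n)) → ℝ)
    (G : Finset (Sym2 (Fin n))) : ℝ :=
  if stop G ∨ triangles G = ∅ then ψ G
  else (∑ T ∈ (triangles G).attach, EvUntil stop ψ (G \ edgesOf T.1)) / (triangles G).card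
termination_by G.card
decreasing_by exact card_sdiff_lt_of_triangle T.2

/-- The probability that the process ever visits a state satisfying `bad`. -/
noncomputable def hitProb (bad : Finset (Sym2 (Fin n)) → Prop) (G : Finset (Sym2 (Fin n))) : ℝ :=
  EvUntil bad (fun H => if bad H then 1 else 0) G

lemma card_edgesOf {T : Finset (Fin n)} (h : T.card = 3) : (edgesOf T).card = 3 := by
  obtain ⟨a, b, c, hab, hac, hbc, rfl⟩ := Finset.card_eq_three.1 h
  have e : edgesOf ({a, b, c} : Finset (Fin n)) = {s(a, b), s(a, c), s(b, c)} := by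
    ext e
    induction e using Sym2.ind with
    | _ u v => simp [edgesOf, Finset.mem_sym2_iff]; aesop
  rw [e, Finset.card_insert_of_notMem, Finset.card_insert_of_notMem, Finset.card_singleton]
  · simp [hab, hac]
  · simp [hab, hac, hbc, Ne.symm hac, Ne.symm hab]

lemma card_of_mem_triangles {T : Finset (Fin n)} (h : T ∈ triangles G) : T.card = 3 :=
  (Finset.mem_powersetCard.1 (Finset.mem_filter.1 h).1).2

lemma edgesOf_subset {T : Finset (Fin n)} (h : T ∈ triangles G) : edgesOf T ⊆ G :=
  (Finset.mem_filter.1 h).2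

/-- Every step removes exactly three edges. -/
lemma card_step {T : Finset (Fin n)} (h : T ∈ triangles G) :
    (G \ edgesOf T).card + 3 = G.card := by
  have := Finset.card_sdiff_add_card_eq_card (edgesOf_subset h)
  rwa [card_edgesOf (card_of_mem_triangles h)] at this

lemma card_pos_of_nonterminal (h : triangles G ≠ ∅) : (0 : ℝ) < (triangles G).card := by
  exact_mod_cast Finset.card_pos.2 (Finset.nonempty_iff_ne_empty.2 h)

lemma three_le_card_of_nonterminal (h : triangles G ≠ ∅) : 3 ≤ G.card := by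
  obtain ⟨T, hT⟩ := Finset.nonempty_iff_ne_empty.2 h
  have := card_step hT
  omega

section Avg

variable {f g : Finset (Sym2 (Fin n)) → ℝ}

lemma childAvg_le_childAvg (h : ∀ T ∈ triangles G, f (G \ edgesOf T) ≤ g (G \ edgesOf T)) :
    childAvg f G ≤ childAvg g G :=
  div_le_div_of_nonneg_right (Finset.sum_le_sum h) (by positivity)

lemma childAvg_add (f g : Finset (Sym2 (Fin n)) → ℝ) (G : Finset (Sym2 (Fin n))) :
    childAvg (fun H => f H + g H) G = childAvg f G + childAvg g G := by
  simp [childAvg, Finset.sum_add_distrib, add_div]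

lemma childAvg_const_mul (c : ℝ) (f : Finset (Sym2 (Fin n)) → ℝ) (G : Finset (Sym2 (Fin n))) :
    childAvg (fun H => c * f H) G = c * childAvg f G := by
  simp [childAvg, ← Finset.mul_sum, mul_div_assoc]

lemma childAvg_const (h : triangles G ≠ ∅) (c : ℝ) : childAvg (fun _ => c) G = c := by
  have := card_pos_of_nonterminal h
  rw [childAvg, Finset.sum_const, nsmul_eq_mul]
  field_simp

/-- A function of the number of edges has a deterministic step. -/
lemma childAvg_card (h : triangles G ≠ ∅) (B : ℕ → ℝ) :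
    childAvg (fun H => B H.card) G = B (G.card - 3) := by
  refine Eq.trans ?_ (childAvg_const h (B (G.card - 3)))
  unfold childAvg
  congr 1
  exact Finset.sum_congr rfl fun T hT => by rw [← card_step hT, Nat.add_sub_cancel]

end Avg

section EvUntil

variable {stop : Finset (Sym2 (Fin n)) → Prop} {ψ χ : Finset (Sym2 (Fin n)) → ℝ}

lemma EvUntil_of_stop (h : stop G ∨ triangles G = ∅) : EvUntil stop ψ G = ψ G := by
  rw [EvUntil, if_pos h]

lemma EvUntil_of_step (h : ¬ stop G) (h' : triangles G ≠ ∅) :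
    EvUntil stop ψ G = childAvg (EvUntil stop ψ) G := by
  rw [EvUntil, if_neg (by tauto),
    Finset.sum_attach (triangles G) fun T => EvUntil stop ψ (G \ edgesOf T), childAvg]

/-- Induction along the process from `G0`. -/
lemma process_induction {P : Finset (Sym2 (Fin n)) → Prop}
    (h : ∀ G, G ⊆ G0 → (∀ T ∈ triangles G, P (G \ edgesOf T)) → P G) : P G0 := by
  suffices H : ∀ k, ∀ G, G.card = k → G ⊆ G0 → P G from H _ G0 rfl subset_rfl
  intro k
  induction k using Nat.strong_induction_on with
  | _ k ih =>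
    intro G hk hG
    exact h G hG fun T hT =>
      ih _ (hk ▸ card_sdiff_lt_of_triangle hT) _ rfl (Finset.sdiff_subset.trans hG)

/-- Superharmonic comparison. -/
theorem EvUntil_le_of_superharmonic (W : Finset (Sym2 (Fin n)) → ℝ)
    (hend : ∀ G, G ⊆ G0 → stop G ∨ triangles G = ∅ → ψ G ≤ W G)
    (hdrift : ∀ G, G ⊆ G0 → ¬ stop G → triangles G ≠ ∅ → childAvg W G ≤ W G) :
    EvUntil stop ψ G0 ≤ W G0 := by
  refine process_induction (P := fun G => EvUntil stop ψ G ≤ W G) fun G hG ih => ?_
  by_cases h : stop G ∨ triangles G = ∅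
  · rw [EvUntil_of_stop h]; exact hend G hG h
  · rw [not_or] at h
    rw [EvUntil_of_step h.1 h.2]
    exact (childAvg_le_childAvg ih).trans (hdrift G hG h.1 h.2)

/-- Subharmonic comparison. -/
theorem le_EvUntil_of_subharmonic (W : Finset (Sym2 (Fin n)) → ℝ)
    (hend : ∀ G, G ⊆ G0 → stop G ∨ triangles G = ∅ → W G ≤ ψ G)
    (hdrift : ∀ G, G ⊆ G0 → ¬ stop G → triangles G ≠ ∅ → W G ≤ childAvg W G) :
    W G0 ≤ EvUntil stop ψ G0 := by
  refine process_induction (P := fun G => W G ≤ EvUntil stop ψ G) fun G hG ih => ?_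
  by_cases h : stop G ∨ triangles G = ∅
  · rw [EvUntil_of_stop h]; exact hend G hG h
  · rw [not_or] at h
    rw [EvUntil_of_step h.1 h.2]
    exact (hdrift G hG h.1 h.2).trans (childAvg_le_childAvg ih)

lemma EvUntil_mono (h : ∀ G, G ⊆ G0 → stop G ∨ triangles G = ∅ → ψ G ≤ χ G) :
    EvUntil stop ψ G0 ≤ EvUntil stop χ G0 :=
  EvUntil_le_of_superharmonic _ (fun G hG hs => (h G hG hs).trans (EvUntil_of_stop hs).ge)
    fun _ _ hs ht => (EvUntil_of_step hs ht).ge

lemma EvUntil_congr (h : ∀ G, G ⊆ G0 → stop G ∨ triangles G = ∅ → ψ G = χ G) :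
    EvUntil stop ψ G0 = EvUntil stop χ G0 :=
  le_antisymm (EvUntil_mono fun G hG hs => (h G hG hs).le)
    (EvUntil_mono fun G hG hs => (h G hG hs).ge)

lemma EvUntil_add (stop : Finset (Sym2 (Fin n)) → Prop) (ψ χ : Finset (Sym2 (Fin n)) → ℝ)
    (G : Finset (Sym2 (Fin n))) :
    EvUntil stop (fun H => ψ H + χ H) G = EvUntil stop ψ G + EvUntil stop χ G := by
  refine process_induction (G0 := G) (P := fun G => EvUntil stop (fun H => ψ H + χ H) G =
    EvUntil stop ψ G + EvUntil stop χ G) fun G _ ih => ?_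
  by_cases h : stop G ∨ triangles G = ∅
  · simp only [EvUntil_of_stop h]
  · rw [not_or] at h
    rw [EvUntil_of_step h.1 h.2, EvUntil_of_step h.1 h.2, EvUntil_of_step h.1 h.2, ← childAvg_add]
    exact congrArg (· / _) (Finset.sum_congr rfl ih)

lemma EvUntil_const_mul (stop : Finset (Sym2 (Fin n)) → Prop) (c : ℝ)
    (ψ : Finset (Sym2 (Fin n)) → ℝ) (G : Finset (Sym2 (Fin n))) :
    EvUntil stop (fun H => c * ψ H) G = c * EvUntil stop ψ G := by
  refine process_induction (G0 := G) (P := fun G => EvUntil stop (fun H => c * ψ H) G =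
    c * EvUntil stop ψ G) fun G _ ih => ?_
  by_cases h : stop G ∨ triangles G = ∅
  · simp only [EvUntil_of_stop h]
  · rw [not_or] at h
    rw [EvUntil_of_step h.1 h.2, EvUntil_of_step h.1 h.2, ← childAvg_const_mul]
    exact congrArg (· / _) (Finset.sum_congr rfl ih)

lemma EvUntil_const (stop : Finset (Sym2 (Fin n)) → Prop) (c : ℝ) (G : Finset (Sym2 (Fin n))) :
    EvUntil stop (fun _ => c) G = c :=
  le_antisymm
    (EvUntil_le_of_superharmonic (fun _ => c) (fun _ _ _ => le_rfl)
      fun _ _ _ ht => (childAvg_const ht c).le)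
    (le_EvUntil_of_subharmonic (fun _ => c) (fun _ _ _ => le_rfl)
      fun _ _ _ ht => (childAvg_const ht c).ge)

end EvUntil

/-- `Ev` is `EvUntil` without stopping. -/
lemma Ev_eq_EvUntil (φ : Finset (Sym2 (Fin n)) → ℝ) (G : Finset (Sym2 (Fin n))) :
    Ev φ G = EvUntil (fun _ => False) φ G := by
  refine process_induction (G0 := G) (P := fun G => Ev φ G = EvUntil (fun _ => False) φ G)
    fun G _ ih => ?_
  by_cases h : triangles G = ∅
  · rw [Ev_of_empty h, EvUntil_of_stop (Or.inr h)]
  · rw [Ev_of_nonempty h, EvUntil_of_step id h, childAvg]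
    exact congrArg (· / _) (Finset.sum_congr rfl ih)

/-- The strong Markov property at the first state satisfying `stop`. -/
theorem Ev_eq_EvUntil_Ev (stop : Finset (Sym2 (Fin n)) → Prop) (φ : Finset (Sym2 (Fin n)) → ℝ)
    (G : Finset (Sym2 (Fin n))) : Ev φ G = EvUntil stop (Ev φ) G := by
  refine process_induction (G0 := G) (P := fun G => Ev φ G = EvUntil stop (Ev φ) G)
    fun G _ ih => ?_
  by_cases h : stop G ∨ triangles G = ∅
  · rw [EvUntil_of_stop h]
  · rw [not_or] at h
    rw [Ev_of_nonempty h.2, EvUntil_of_step h.1 h.2, childAvg]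
    exact congrArg (· / _) (Finset.sum_congr rfl ih)

lemma Ev_mono {φ χ : Finset (Sym2 (Fin n)) → ℝ}
    (h : ∀ G, G ⊆ G0 → triangles G = ∅ → φ G ≤ χ G) : Ev φ G0 ≤ Ev χ G0 := by
  rw [Ev_eq_EvUntil, Ev_eq_EvUntil]
  exact EvUntil_mono fun G hG hs => h G hG (hs.resolve_left id)

lemma Ev_congr {φ χ : Finset (Sym2 (Fin n)) → ℝ}
    (h : ∀ G, G ⊆ G0 → triangles G = ∅ → φ G = χ G) : Ev φ G0 = Ev χ G0 :=
  le_antisymm (Ev_mono fun G hG hs => (h G hG hs).le) (Ev_mono fun G hG hs => (h G hG hs).ge)

lemma Ev_add (φ χ : Finset (Sym2 (Fin n)) → ℝ) (G : Finset (Sym2 (Fin n))) :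
    Ev (fun H => φ H + χ H) G = Ev φ G + Ev χ G := by
  simp only [Ev_eq_EvUntil, EvUntil_add]

lemma Ev_const_mul (c : ℝ) (φ : Finset (Sym2 (Fin n)) → ℝ) (G : Finset (Sym2 (Fin n))) :
    Ev (fun H => c * φ H) G = c * Ev φ G := by
  simp only [Ev_eq_EvUntil, EvUntil_const_mul]

lemma Ev_const (c : ℝ) (G : Finset (Sym2 (Fin n))) : Ev (fun _ => c) G = c := by
  rw [Ev_eq_EvUntil, EvUntil_const]

lemma Ev_sum {ι : Type*} (s : Finset ι) (φ : ι → Finset (Sym2 (Fin n)) → ℝ)
    (G : Finset (Sym2 (Fin n))) : Ev (fun H => ∑ i ∈ s, φ i H) G = ∑ i ∈ s, Ev (φ i) G := by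
  induction s using Finset.induction_on with
  | empty => simpa using Ev_const 0 G
  | insert a s ha ih => simp only [Finset.sum_insert ha, Ev_add, ih]

lemma Ev_le_of_superharmonic {φ : Finset (Sym2 (Fin n)) → ℝ} (W : Finset (Sym2 (Fin n)) → ℝ)
    (hend : ∀ G, G ⊆ G0 → triangles G = ∅ → φ G ≤ W G)
    (hdrift : ∀ G, G ⊆ G0 → triangles G ≠ ∅ → childAvg W G ≤ W G) : Ev φ G0 ≤ W G0 := by
  rw [Ev_eq_EvUntil]
  exact EvUntil_le_of_superharmonic W (fun G hG hs => hend G hG (hs.resolve_left id))
    fun G hG _ ht => hdrift G hG ht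

lemma le_Ev_of_subharmonic {φ : Finset (Sym2 (Fin n)) → ℝ} (W : Finset (Sym2 (Fin n)) → ℝ)
    (hend : ∀ G, G ⊆ G0 → triangles G = ∅ → W G ≤ φ G)
    (hdrift : ∀ G, G ⊆ G0 → triangles G ≠ ∅ → W G ≤ childAvg W G) : W G0 ≤ Ev φ G0 := by
  rw [Ev_eq_EvUntil]
  exact le_EvUntil_of_subharmonic W (fun G hG hs => hend G hG (hs.resolve_left id))
    fun G hG _ ht => hdrift G hG ht

section Tail

variable {bad : Finset (Sym2 (Fin n)) → Prop} {W : Finset (Sym2 (Fin n)) → ℝ} {c : ℕ → ℝ}

/-- The drift budget spent down from `k` edges to `M` edges. -/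
noncomputable def budget (c : ℕ → ℝ) (M k : ℕ) : ℝ := ∑ i ∈ Finset.Ioc M k, c i

lemma budget_nonneg (hc : ∀ i, 0 ≤ c i) (M k : ℕ) : 0 ≤ budget c M k :=
  Finset.sum_nonneg fun i _ => hc i

lemma add_budget_le (hc : ∀ i, 0 ≤ c i) {M k : ℕ} (hk : M < k) (hk3 : 3 ≤ k) :
    c k + budget c M (k - 3) ≤ budget c M k := by
  have hnot : k ∉ Finset.Ioc M (k - 3) := fun h => by
    have := (Finset.mem_Ioc.1 h).2; omega
  rw [budget, budget, ← Finset.sum_insert hnot]
  refine Finset.sum_le_sum_of_subset_of_nonneg (fun i hi => ?_) fun i _ _ => hc i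
  rcases Finset.mem_insert.1 hi with rfl | h
  · exact Finset.mem_Ioc.2 ⟨hk, le_rfl⟩
  · exact Finset.mem_Ioc.2 ⟨(Finset.mem_Ioc.1 h).1, by have := (Finset.mem_Ioc.1 h).2; omega⟩

/-- Drift to tail. If the nonnegative potential `W` is at least `1` wherever `bad` holds above
`M` edges, and gains at most `c` in expectation per step while it is below `1`, then `bad`
is ever seen above `M` edges with probability at most `W G0` plus the budget. -/
theorem hitProb_le (M : ℕ) (hW : ∀ G, G ⊆ G0 → 0 ≤ W G) (hc : ∀ i, 0 ≤ c i)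
    (hbad : ∀ G, G ⊆ G0 → M < G.card → bad G → 1 ≤ W G)
    (hdrift : ∀ G, G ⊆ G0 → M < G.card → ¬ bad G → triangles G ≠ ∅ → W G < 1 →
      childAvg W G ≤ W G + c G.card) :
    hitProb (fun G => M < G.card ∧ bad G) G0 ≤ W G0 + budget c M G0.card := by
  set U : Finset (Sym2 (Fin n)) → ℝ := fun G =>
    if M < G.card then min 1 (W G + budget c M G.card) else 0 with hU
  have hU0 : ∀ G, G ⊆ G0 → 0 ≤ W G + budget c M G.card := fun G hG =>
    add_nonneg (hW G hG) (budget_nonneg hc _ _)
  refine le_trans (EvUntil_le_of_superharmonic U (fun G hG _ => ?_) fun G hG hs ht => ?_) ?_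
  · by_cases h : M < G.card ∧ bad G
    · simp only [hU, if_pos h, if_pos h.1]
      exact le_min le_rfl (le_add_of_le_of_nonneg (hbad G hG h.1 h.2) (budget_nonneg hc _ _))
    · rw [if_neg h]
      simp only [hU]
      split
      · exact le_min zero_le_one (hU0 G hG)
      · exact le_rfl
  · have hle : ∀ T ∈ triangles G, U (G \ edgesOf T) ≤
        W (G \ edgesOf T) + budget c M (G \ edgesOf T).card := fun T _ => by
      simp only [hU]
      split
      · exact min_le_right _ _
      · exact hU0 _ (Finset.sdiff_subset.trans hG)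
    by_cases hM : M < G.card
    · have hle1 : childAvg U G ≤ 1 := le_of_le_of_eq (childAvg_le_childAvg fun T _ => by
        simp only [hU]
        split
        · exact min_le_left _ _
        · exact zero_le_one) (childAvg_const ht 1)
      rw [show U G = min 1 (W G + budget c M G.card) from if_pos hM]
      refine le_min hle1 ?_
      by_cases hW1 : W G < 1
      · refine (childAvg_le_childAvg (g := fun H => W H + budget c M H.card) hle).trans ?_
        rw [childAvg_add, childAvg_card ht]
        have := hdrift G hG hM (fun h => hs ⟨hM, h⟩) ht hW1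
        linarith [add_budget_le hc hM (three_le_card_of_nonterminal ht)]
      · linarith [budget_nonneg hc M G.card, not_lt.1 hW1]
    · rw [show U G = 0 from if_neg hM]
      refine le_of_le_of_eq (childAvg_le_childAvg fun T hT => ?_) (childAvg_const ht 0)
      have : ¬ M < (G \ edgesOf T).card := by have := card_step hT; omega
      exact (if_neg this).le
  · simp only [hU]
    split
    · exact min_le_right _ _
    · exact hU0 G0 subset_rfl

/-- The form used for the final number of edges: `W` is at least `1` at every triangle-free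
state above `M` edges. -/
theorem Ev_tail_le (M : ℕ) (hW : ∀ G, G ⊆ G0 → 0 ≤ W G) (hc : ∀ i, 0 ≤ c i)
    (hend : ∀ G, G ⊆ G0 → M < G.card → triangles G = ∅ → 1 ≤ W G)
    (hdrift : ∀ G, G ⊆ G0 → M < G.card → triangles G ≠ ∅ → W G < 1 →
      childAvg W G ≤ W G + c G.card) :
    Ev (fun G => if M < G.card then 1 else 0) G0 ≤ W G0 + budget c M G0.card := by
  refine le_trans (le_of_eq ?_) (hitProb_le (bad := fun G => triangles G = ∅) M hW hc
    (fun G hG hM hb => hend G hG hM hb) fun G hG hM _ ht hW1 => hdrift G hG hM ht hW1)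
  set bad : Finset (Sym2 (Fin n)) → Prop := fun G => M < G.card ∧ triangles G = ∅
  refine process_induction (G0 := G0) (P := fun G => Ev (fun H => if M < H.card then 1 else 0) G =
    hitProb bad G) fun G _ ih => ?_
  unfold hitProb at ih ⊢
  by_cases h : triangles G = ∅
  · rw [Ev_of_empty h, EvUntil_of_stop (Or.inr h)]
    simp [bad, h]
  · rw [Ev_of_nonempty h, EvUntil_of_step (fun hh : bad G => h hh.2) h, childAvg]
    exact congrArg (· / _) (Finset.sum_congr rfl ih)

end Tail

lemma hitProb_nonneg (bad : Finset (Sym2 (Fin n)) → Prop) (G : Finset (Sym2 (Fin n))) :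
    0 ≤ hitProb bad G :=
  le_of_eq_of_le (EvUntil_const bad 0 G).symm (EvUntil_mono fun H _ _ => by split <;> norm_num)

lemma hitProb_le_one (bad : Finset (Sym2 (Fin n)) → Prop) (G : Finset (Sym2 (Fin n))) :
    hitProb bad G ≤ 1 :=
  le_of_le_of_eq (EvUntil_mono fun H _ _ => by split <;> norm_num) (EvUntil_const bad 1 G)

/-- Union bound for visits. -/
theorem hitProb_le_add (A B : Finset (Sym2 (Fin n)) → Prop) (G : Finset (Sym2 (Fin n))) :
    hitProb (fun H => A H ∨ B H) G ≤ hitProb A G + hitProb B G := by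
  refine EvUntil_le_of_superharmonic (fun H => hitProb A H + hitProb B H) (fun H _ _ => ?_)
    fun H _ hs ht => ?_
  · by_cases h : A H ∨ B H
    · rw [if_pos h]
      rcases h with h | h
      · have : hitProb A H = 1 := (EvUntil_of_stop (Or.inl h)).trans (if_pos h)
        linarith [hitProb_nonneg B H]
      · have : hitProb B H = 1 := (EvUntil_of_stop (Or.inl h)).trans (if_pos h)
        linarith [hitProb_nonneg A H]
    · rw [if_neg h]
      exact add_nonneg (hitProb_nonneg A H) (hitProb_nonneg B H)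
  · rw [not_or] at hs
    rw [childAvg_add]
    refine (add_le_add (le_of_eq ?_) (le_of_eq ?_))
    · exact (EvUntil_of_step hs.1 ht).symm
    · exact (EvUntil_of_step hs.2 ht).symm

/-- The stage bound for lower estimates: if from every state at which the process first has at
most `M` edges without having seen `bad` the expectation of `φ ≥ 0` is at least `K`, then it is
at least `K (1 - P(bad))` from the start. -/
theorem le_Ev_of_stage {φ : Finset (Sym2 (Fin n)) → ℝ} {bad : Finset (Sym2 (Fin n)) → Prop}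
    {K : ℝ} (M : ℕ) (hK : 0 ≤ K) (hφ : ∀ G, G ⊆ G0 → 0 ≤ φ G)
    (hgood : ∀ G, G ⊆ G0 → (G.card ≤ M ∨ triangles G = ∅) → ¬ bad G → K ≤ Ev φ G) :
    K * (1 - hitProb bad G0) ≤ Ev φ G0 := by
  refine process_induction (P := fun G => K * (1 - hitProb bad G) ≤ Ev φ G) fun G hG ih => ?_
  by_cases hb : bad G
  · rw [hitProb, EvUntil_of_stop (Or.inl hb), if_pos hb, sub_self, mul_zero]
    rw [Ev_eq_EvUntil]
    exact le_of_eq_of_le (EvUntil_const _ 0 G).symm
      (EvUntil_mono fun H hH _ => hφ H (hH.trans hG))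
  by_cases hs : G.card ≤ M ∨ triangles G = ∅
  · refine le_trans ?_ (hgood G hG hs hb)
    exact mul_le_of_le_one_right hK (by linarith [hitProb_nonneg bad G])
  rw [not_or] at hs
  rw [hitProb, EvUntil_of_step hb hs.2, Ev_of_nonempty hs.2]
  refine le_of_eq_of_le ?_ (childAvg_le_childAvg (f := fun H => K * (1 - hitProb bad H)) ih)
  rw [show (fun H => K * (1 - hitProb bad H)) = fun H => K + (-K) * hitProb bad H from
    funext fun H => by ring, childAvg_add, childAvg_const hs.2, childAvg_const_mul]
  unfold hitProb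
  ring

lemma card_completeEdges (n : ℕ) : (completeEdges n).card = n.choose 2 := by
  rw [completeEdges, ← Fintype.card_subtype]
  simpa using Sym2.card_subtype_not_diag (α := Fin n)

/-- The final number of edges, bounded by a threshold and the tail. -/
lemma Ev_card_le (G : Finset (Sym2 (Fin n))) (M : ℕ) :
    Ev (fun H => (H.card : ℝ)) G ≤
      M + G.card * Ev (fun H => if M < H.card then 1 else 0) G := by
  rw [← Ev_const_mul, ← Ev_const (M : ℝ) G, ← Ev_add]
  refine Ev_mono fun H hH _ => ?_
  by_cases h : M < H.card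
  · rw [if_pos h, mul_one]
    exact le_add_of_nonneg_of_le (Nat.cast_nonneg _) (by exact_mod_cast Finset.card_le_card hH)
  · rw [if_neg h, mul_zero, add_zero]
    exact_mod_cast not_lt.1 h

/-- Layer cake: the expected final number of edges from the tails at doubling thresholds. -/
lemma Ev_card_le_sum (G : Finset (Sym2 (Fin n))) (M J : ℕ) (hJ : G.card ≤ M * 2 ^ J) :
    Ev (fun H => (H.card : ℝ)) G ≤ M +
      ∑ j ∈ Finset.range J, (M * 2 ^ j : ℝ) *
        Ev (fun H => if M * 2 ^ j < H.card then 1 else 0) G := by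
  refine le_of_le_of_eq (b := Ev (fun H => (M : ℝ) + ∑ j ∈ Finset.range J, (M * 2 ^ j : ℝ) *
    (if M * 2 ^ j < H.card then 1 else 0)) G) ?_
    (by simp only [Ev_add, Ev_sum, Ev_const_mul, Ev_const])
  refine Ev_mono fun H hH _ => ?_
  have key : ∀ i, i ≤ J → min (H.card : ℝ) (M * 2 ^ i) ≤ M + ∑ j ∈ Finset.range i,
      (M * 2 ^ j : ℝ) * (if M * 2 ^ j < H.card then 1 else 0) := by
    intro i
    induction i with
    | zero => simp
    | succ i ih =>
      intro hi
      rw [Finset.sum_range_succ, ← add_assoc]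
      have h2 := ih (by omega)
      by_cases h : M * 2 ^ i < H.card
      · have h1 : (M * 2 ^ i : ℝ) ≤ H.card := by exact_mod_cast h.le
        rw [min_eq_right h1] at h2
        rw [if_pos h, mul_one, pow_succ]
        linarith [min_le_right (H.card : ℝ) ((M : ℝ) * (2 ^ i * 2))]
      · have h1 : (H.card : ℝ) ≤ M * 2 ^ i := by exact_mod_cast not_lt.1 h
        rw [min_eq_left h1] at h2
        rw [if_neg h, mul_zero, add_zero]
        exact (min_le_left _ _).trans h2
  refine le_trans (le_of_eq (min_eq_left ?_).symm) (key J le_rfl)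
  exact_mod_cast (Finset.card_le_card hH).trans hJ

end Vale.Agent.P046
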