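import Mathlib

/-!
Greedy packing driven by independent labels. Slot `s` belongs to the triangle `tr s`; the
triangle of slot `s` is tried at slot `s` when its label points there. Only enabled slots act.
-/

namespace Vale.Agent.P046

open Finset
open scoped Classical

/-- Triangles with their edge sets, and their slots: `tr` and `lab` decode a slot. -/
structure Sys (V : Type) where
  /-- The number of triangles. -/
  N : ℕ
  /-- The number of labels. -/
  M : ℕ
  /-- The edges of a triangle. -/
  ed : Fin N → Finset V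
  hN : 0 < N
  hM : 0 < M

namespace Sys

variable {V : Type} (Y : Sys V)

/-- The labellings. -/
abbrev Labels : Type := Fin Y.N → Fin Y.M

/-- The triangle of a slot. -/
def tr (s : ℕ) : Fin Y.N := ⟨s % Y.N, Nat.mod_lt _ Y.hN⟩

/-- The edges of the triangle of a slot. -/
def eds (s : ℕ) : Finset V := Y.ed (Y.tr s)

/-- The triangle of slot `s` is labelled for it. -/
def Hit (x : Y.Labels) (s : ℕ) : Prop := (x (Y.tr s) : ℕ) = s / Y.N

/-- The edges removed before slot `s`, when only the enabled slots act. -/
noncomputable def gone (en : Finset ℕ) (x : Y.Labels) : ℕ → Finset V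
  | 0 => ∅
  | s + 1 =>
    if s ∈ en ∧ Y.Hit x s ∧ Disjoint (Y.eds s) (gone en x s) then gone en x s ∪ Y.eds s
    else gone en x s

/-- A configuration: each edge is required up to its slot, `0` being no requirement. -/
abbrev Conf (V : Type) : Type := V → ℕ

/-- The configuration is present. -/
def Ok (en : Finset ℕ) (x : Y.Labels) (B : Conf V) : Prop := ∀ g, g ∉ Y.gone en x (B g)

/-- The probability of a configuration. -/
noncomputable def pr (en : Finset ℕ) (B : Conf V) : ℝ :=
  (∑ x : Y.Labels, if Y.Ok en x B then (1 : ℝ) else 0) / (Y.M : ℝ) ^ Y.N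

/-- Require `g` up to slot `r`. -/
noncomputable def addE (B : Conf V) (g : V) (r : ℕ) : Conf V :=
  fun f => if f = g then max (B f) r else B f

/-- Require the edges of `T` up to slot `r`. -/
noncomputable def addS (B : Conf V) (T : Finset V) (r : ℕ) : Conf V :=
  fun f => if f ∈ T then max (B f) r else B f

/-- All slots. -/
def full : Finset ℕ := Finset.range (Y.M * Y.N)

/-- Disable the slots of triangles through `g` from slot `a` on. -/
noncomputable def cut (en : Finset ℕ) (g : V) (a : ℕ) : Finset ℕ :=
  en.filter fun s => ¬ (g ∈ Y.eds s ∧ a ≤ s)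

/-- Disable the slots of triangles through `g` before slot `b`. -/
noncomputable def shield (en : Finset ℕ) (g : V) (b : ℕ) : Finset ℕ :=
  en.filter fun s => ¬ (g ∈ Y.eds s ∧ s < b)

/-- Disable all slots of the triangle `T`. -/
noncomputable def drop (en : Finset ℕ) (T : Fin Y.N) : Finset ℕ :=
  en.filter fun s => Y.tr s ≠ T

/-- Disable the slots after `s` of all triangles meeting the triangle of `s`. -/
noncomputable def after (en : Finset ℕ) (s : ℕ) : Finset ℕ :=
  en.filter fun j => ¬ (s < j ∧ ¬ Disjoint (Y.eds j) (Y.eds s))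

lemma gone_zero (en : Finset ℕ) (x : Y.Labels) : Y.gone en x 0 = ∅ := rfl

lemma gone_succ (en : Finset ℕ) (x : Y.Labels) (s : ℕ) :
    Y.gone en x (s + 1) =
      if s ∈ en ∧ Y.Hit x s ∧ Disjoint (Y.eds s) (Y.gone en x s) then
        Y.gone en x s ∪ Y.eds s else Y.gone en x s := rfl

lemma gone_mono (en : Finset ℕ) (x : Y.Labels) {s t : ℕ} (h : s ≤ t) :
    Y.gone en x s ⊆ Y.gone en x t := by
  induction t, h using Nat.le_induction with
  | base => exact subset_rfl
  | succ t _ ih =>
    refine ih.trans ?_
    rw [gone_succ]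
    split
    · exact Finset.subset_union_left
    · exact subset_rfl

lemma gone_congr {en en' : Finset ℕ} {x : Y.Labels} {s : ℕ}
    (h : ∀ j < s, Y.Hit x j → (j ∈ en ↔ j ∈ en')) : Y.gone en x s = Y.gone en' x s := by
  induction s with
  | zero => rfl
  | succ s ih =>
    have ih' := ih fun j hj => h j (by omega)
    rw [gone_succ, gone_succ, ih']
    refine if_congr ⟨?_, ?_⟩ rfl rfl
    · rintro ⟨h1, h2, h3⟩; exact ⟨(h s (by omega) h2).1 h1, h2, h3⟩
    · rintro ⟨h1, h2, h3⟩; exact ⟨(h s (by omega) h2).2 h1, h2, h3⟩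

lemma gone_update {en : Finset ℕ} (x : Y.Labels) (T : Fin Y.N) (c : Fin Y.M) (hT : ∀ j ∈ en, Y.tr j ≠ T)
    (s : ℕ) : Y.gone en (Function.update x T c) s = Y.gone en x s := by
  induction s with
  | zero => rfl
  | succ s ih =>
    rw [gone_succ, gone_succ, ih]
    by_cases hs : s ∈ en
    · refine if_congr ?_ rfl rfl
      simp only [Hit, Function.update_of_ne (hT s hs)]
    · simp [hs]

lemma hit_unique {x : Y.Labels} {s j : ℕ} (hs : Y.Hit x s) (hj : Y.Hit x j)
    (h : Y.tr j = Y.tr s) : j = s := by
  have e1 : (x (Y.tr s) : ℕ) = s / Y.N := hs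
  have e2 : (x (Y.tr j) : ℕ) = j / Y.N := hj
  rw [h, e1] at e2
  have e3 : j % Y.N = s % Y.N := congrArg Fin.val h
  rw [← Nat.div_add_mod j Y.N, ← Nat.div_add_mod s Y.N, e2, e3]

/-- If the slot does not fire, adding it changes nothing. -/
lemma gone_insert_of_not {en : Finset ℕ} {x : Y.Labels} {s : ℕ}
    (h : ¬ (Y.Hit x s ∧ Disjoint (Y.eds s) (Y.gone en x s))) (t : ℕ) :
    Y.gone (insert s en) x t = Y.gone en x t := by
  induction t with
  | zero => rfl
  | succ t ih =>
    rw [gone_succ, gone_succ, ih]
    rcases eq_or_ne t s with rfl | hne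
    · have h2 : ¬ (t ∈ en ∧ Y.Hit x t ∧ Disjoint (Y.eds t) (Y.gone en x t)) := fun hh => h hh.2
      have h3 : ¬ (t ∈ insert t en ∧ Y.Hit x t ∧ Disjoint (Y.eds t) (Y.gone en x t)) :=
        fun hh => h hh.2
      rw [if_neg h2, if_neg h3]
    · simp only [Finset.mem_insert, hne, false_or]

/-- If the slot fires, adding it removes its edges and silences the triangles meeting it. -/
lemma gone_insert_of_fire {en : Finset ℕ} {x : Y.Labels} {s : ℕ} (hs : s ∉ en)
    (h1 : Y.Hit x s) (h2 : Disjoint (Y.eds s) (Y.gone en x s)) (t : ℕ) (ht : s < t) :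
    Y.gone (insert s en) x t = Y.gone (Y.after en s) x t ∪ Y.eds s := by
  have hpre : ∀ j ≤ s, Y.gone (Y.after en s) x j = Y.gone en x j := fun j hj =>
    Y.gone_congr fun i hi _ => by simp only [after, Finset.mem_filter]; constructor
                                  · exact fun hh => hh.1
                                  · exact fun hh => ⟨hh, fun hc => by omega⟩
  induction t, ht using Nat.le_induction with
  | base =>
    have e : Y.gone (insert s en) x s = Y.gone en x s :=
      Y.gone_congr fun j hj _ => by simp [hj.ne]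
    rw [gone_succ, gone_succ, e, if_pos ⟨Finset.mem_insert_self _ _, h1, h2⟩, if_neg, hpre s le_rfl]
    simp [after, hs]
  | succ t ht ih =>
    rw [gone_succ, gone_succ, ih]
    have hne : t ≠ s := by omega
    by_cases hd : Disjoint (Y.eds t) (Y.eds s)
    · have e : (t ∈ insert s en) ↔ t ∈ Y.after en s := by
        simp [after, hne, hd]
      have e2 : Disjoint (Y.eds t) (Y.gone (Y.after en s) x t ∪ Y.eds s) ↔
          Disjoint (Y.eds t) (Y.gone (Y.after en s) x t) := by
        simp [Finset.disjoint_union_right, hd]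
      by_cases hc : t ∈ Y.after en s ∧ Y.Hit x t ∧
          Disjoint (Y.eds t) (Y.gone (Y.after en s) x t)
      · rw [if_pos hc, if_pos ⟨e.2 hc.1, hc.2.1, e2.2 hc.2.2⟩]
        exact Finset.union_right_comm _ _ _
      · rw [if_neg hc, if_neg fun hh => hc ⟨e.1 hh.1, hh.2.1, e2.1 hh.2.2⟩]
    · have n1 : t ∉ Y.after en s := by
        simp only [after, Finset.mem_filter]
        exact fun hh => hh.2 ⟨by omega, hd⟩
      rw [if_neg, if_neg (fun hh => n1 hh.1)]
      exact fun hh => hd (Finset.disjoint_union_right.1 hh.2.2).2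

end Sys

end Vale.Agent.P046
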