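import Vale.Agent.P046.Model

/-!
The random triangle removal process, and its comparison with greedy packing by independent
labels: conditionally on distinct labels the two agree exactly.
-/

namespace Vale.Agent.P046

open Finset
open scoped Classical

section Process

variable {n : ℕ}

/-- The three edges spanned by a set of three vertices. -/
noncomputable def edgesOf (T : Finset (Fin n)) : Finset (Sym2 (Fin n)) :=
  T.sym2.filter fun e => ¬ e.IsDiag

/-- The edges of the complete graph on `Fin n`. -/
noncomputable def completeEdges (n : ℕ) : Finset (Sym2 (Fin n)) :=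
  Finset.univ.filter fun e => ¬ e.IsDiag

/-- The triangles of an edge set: three vertices with all three edges present. -/
noncomputable def triangles (G : Finset (Sym2 (Fin n))) : Finset (Finset (Fin n)) :=
  (Finset.univ.powersetCard 3).filter fun T => edgesOf T ⊆ G

lemma edgesOf_nonempty {T : Finset (Fin n)} (h : T.card = 3) : (edgesOf T).Nonempty := by
  obtain ⟨a, ha, b, hb, hab⟩ := Finset.one_lt_card.1 (by omega : 1 < T.card)
  exact ⟨s(a, b), by simp [edgesOf, Finset.mem_sym2_iff, ha, hb, hab]⟩

lemma card_sdiff_lt_of_triangle {G : Finset (Sym2 (Fin n))} {T : Finset (Fin n)}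
    (h : T ∈ triangles G) : (G \ edgesOf T).card < G.card := by
  simp only [triangles, Finset.mem_filter, Finset.mem_powersetCard] at h
  obtain ⟨e, he⟩ := edgesOf_nonempty h.1.2
  exact Finset.card_lt_card ⟨Finset.sdiff_subset, fun hh => (Finset.mem_sdiff.1 (hh (h.2 he))).2 he⟩

/-- The expectation of `φ` of the final edge set when triangles, chosen uniformly among those
of the current edge set, are removed until none is left. -/
noncomputable def Ev (φ : Finset (Sym2 (Fin n)) → ℝ) (G : Finset (Sym2 (Fin n))) : ℝ :=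
  if triangles G = ∅ then φ G
  else (∑ T ∈ (triangles G).attach, Ev φ (G \ edgesOf T.1)) / (triangles G).card
termination_by G.card
decreasing_by exact card_sdiff_lt_of_triangle T.2

lemma Ev_of_empty {φ : Finset (Sym2 (Fin n)) → ℝ} {G : Finset (Sym2 (Fin n))}
    (h : triangles G = ∅) : Ev φ G = φ G := by
  rw [Ev, if_pos h]

lemma Ev_of_nonempty {φ : Finset (Sym2 (Fin n)) → ℝ} {G : Finset (Sym2 (Fin n))}
    (h : triangles G ≠ ∅) :
    Ev φ G = (∑ T ∈ triangles G, Ev φ (G \ edgesOf T)) / (triangles G).card := by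
  rw [Ev, if_neg h, Finset.sum_attach (triangles G) fun T => Ev φ (G \ edgesOf T)]

lemma abs_Ev_le {φ : Finset (Sym2 (Fin n)) → ℝ} {B : ℝ} (hφ : ∀ G, |φ G| ≤ B)
    (G : Finset (Sym2 (Fin n))) : |Ev φ G| ≤ B := by
  induction hk : G.card using Nat.strong_induction_on generalizing G with
  | _ k ih =>
    by_cases h : triangles G = ∅
    · rw [Ev_of_empty h]; exact hφ G
    · have hc : (0 : ℝ) < (triangles G).card := by
        exact_mod_cast Finset.card_pos.2 (Finset.nonempty_iff_ne_empty.2 h)
      rw [Ev_of_nonempty h, abs_div, abs_of_pos hc, div_le_iff₀ hc]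
      refine (Finset.abs_sum_le_sum_abs _ _).trans ?_
      refine (Finset.sum_le_card_nsmul _ _ B fun T hT => ?_).trans (le_of_eq ?_)
      · exact ih _ (hk ▸ card_sdiff_lt_of_triangle hT) _ rfl
      · rw [nsmul_eq_mul, mul_comm]

end Process

namespace Sys

variable {V : Type} (Y : Sys V)

/-- The slot at which a triangle is tried. -/
def slotOf (x : Y.Labels) (T : Fin Y.N) : ℕ := (x T : ℕ) * Y.N + T

lemma tr_slotOf (x : Y.Labels) (T : Fin Y.N) : Y.tr (Y.slotOf x T) = T := by
  ext; simp [slotOf, tr, Nat.mod_eq_of_lt T.2]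

lemma hit_slotOf (x : Y.Labels) (T : Fin Y.N) : Y.Hit x (Y.slotOf x T) := by
  simp only [Hit, Y.tr_slotOf x T]
  simp only [slotOf]
  rw [add_comm, Nat.add_mul_div_right _ _ Y.hN, Nat.div_eq_of_lt T.2, zero_add]

lemma slotOf_of_hit {x : Y.Labels} {s : ℕ} (h : Y.Hit x s) : Y.slotOf x (Y.tr s) = s := by
  simp only [Hit] at h
  simp only [slotOf, h]
  exact Nat.div_add_mod' s Y.N

lemma slotOf_lt (x : Y.Labels) (T : Fin Y.N) : Y.slotOf x T < Y.M * Y.N := by
  have h1 : ((x T : ℕ) + 1) * Y.N ≤ Y.M * Y.N := Nat.mul_le_mul_right _ (x T).2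
  have h2 := T.2
  simp only [slotOf]
  rw [add_one_mul] at h1
  omega

lemma mem_full_of_hit {x : Y.Labels} {s : ℕ} (h : Y.Hit x s) : s ∈ Y.full := by
  simpa [full, Y.slotOf_of_hit h] using Y.slotOf_lt x (Y.tr s)

lemma gone_full_succ (x : Y.Labels) (s : ℕ) :
    Y.gone Y.full x (s + 1) =
      if Y.Hit x s ∧ Disjoint (Y.eds s) (Y.gone Y.full x s) then
        Y.gone Y.full x s ∪ Y.eds s else Y.gone Y.full x s := by
  rw [gone_succ]
  exact if_congr ⟨fun h => h.2, fun h => ⟨Y.mem_full_of_hit h.1, h⟩⟩ rfl rfl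

/-- One greedy step at a triangle. -/
noncomputable def step (G : Finset V) (T : Fin Y.N) : Finset V :=
  if Y.ed T ⊆ G then G \ Y.ed T else G

/-- `T` is tried first among `S`. -/
def First (S : Finset (Fin Y.N)) (x : Y.Labels) (T : Fin Y.N) : Prop :=
  T ∈ S ∧ ∀ U ∈ S, Y.slotOf x T ≤ Y.slotOf x U

lemma first_unique {S : Finset (Fin Y.N)} {x : Y.Labels} {T U : Fin Y.N} (h : Y.First S x T)
    (h' : Y.First S x U) : T = U := by
  rw [← Y.tr_slotOf x T, le_antisymm (h.2 U h'.1) (h'.2 T h.1), Y.tr_slotOf x U]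

/-- The greedy result of trying the triangles of `S` in the order of their slots. -/
noncomputable def greedy (x : Y.Labels) (φ : Finset V → ℝ) (S : Finset (Fin Y.N))
    (G : Finset V) : ℝ :=
  if S = ∅ then φ G
  else ∑ T ∈ S.attach, if Y.First S x T.1 then greedy x φ (S.erase T.1) (Y.step G T.1) else 0
termination_by S.card
decreasing_by exact Finset.card_erase_lt_of_mem T.2

/-- The greedy result of a uniformly random order of the triangles of `S`. -/
noncomputable def shuffle (φ : Finset V → ℝ) (S : Finset (Fin Y.N)) (G : Finset V) : ℝ :=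
  if S = ∅ then φ G
  else (∑ T ∈ S.attach, shuffle φ (S.erase T.1) (Y.step G T.1)) / S.card
termination_by S.card
decreasing_by exact Finset.card_erase_lt_of_mem T.2

lemma greedy_empty (x : Y.Labels) (φ : Finset V → ℝ) (G : Finset V) :
    Y.greedy x φ ∅ G = φ G := by
  rw [greedy, if_pos rfl]

lemma greedy_step {x : Y.Labels} {S : Finset (Fin Y.N)} {T : Fin Y.N} (h : Y.First S x T)
    (φ : Finset V → ℝ) (G : Finset V) :
    Y.greedy x φ S G = Y.greedy x φ (S.erase T) (Y.step G T) := by
  rw [greedy, if_neg (Finset.ne_empty_of_mem h.1),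
    Finset.sum_eq_single (⟨T, h.1⟩ : {U // U ∈ S}), if_pos h]
  · intro U _ hU
    rw [if_neg]
    exact fun hU' => hU (Subtype.ext (Y.first_unique hU' h))
  · simp

/-- The triangles whose slot is not yet passed. -/
noncomputable def pend (x : Y.Labels) (s : ℕ) : Finset (Fin Y.N) :=
  Finset.univ.filter fun T => s ≤ Y.slotOf x T

lemma greedy_eq_gone {G : Finset V} (hG : ∀ T, Y.ed T ⊆ G) (x : Y.Labels) (φ : Finset V → ℝ) :
    Y.greedy x φ Finset.univ G = φ (G \ Y.gone Y.full x (Y.M * Y.N)) := by
  have key : ∀ s, Y.greedy x φ Finset.univ G =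
      Y.greedy x φ (Y.pend x s) (G \ Y.gone Y.full x s) := by
    intro s
    induction s with
    | zero => simp [pend, gone_zero]
    | succ s ih =>
      by_cases hh : Y.Hit x s
      · have hs := Y.slotOf_of_hit hh
        have hf : Y.First (Y.pend x s) x (Y.tr s) := by
          refine ⟨by simp [pend, hs], fun U hU => ?_⟩
          rw [hs]
          exact (Finset.mem_filter.1 hU).2
        have he : Y.pend x (s + 1) = (Y.pend x s).erase (Y.tr s) := by
          ext U
          simp only [pend, Finset.mem_filter, Finset.mem_univ, true_and, Finset.mem_erase]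
          constructor
          · intro h
            refine ⟨?_, by omega⟩
            rintro rfl
            omega
          · rintro ⟨hne, hle⟩
            rcases hle.lt_or_eq with h | h
            · omega
            · exact absurd (by rw [h, Y.tr_slotOf]) (Ne.symm hne)
        rw [ih, Y.greedy_step hf, he, gone_full_succ, step]
        by_cases hd : Disjoint (Y.eds s) (Y.gone Y.full x s)
        · have hc : Y.Hit x s ∧ Disjoint (Y.eds s) (Y.gone Y.full x s) := ⟨hh, hd⟩
          have hs' : Y.ed (Y.tr s) ⊆ G \ Y.gone Y.full x s :=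
            Finset.subset_sdiff.2 ⟨hG _, hd⟩
          rw [if_pos hc, if_pos hs']
          congr 1
          ext g; simp [eds]; tauto
        · have hc : ¬ (Y.Hit x s ∧ Disjoint (Y.eds s) (Y.gone Y.full x s)) := fun h => hd h.2
          have hs' : ¬ Y.ed (Y.tr s) ⊆ G \ Y.gone Y.full x s :=
            fun h => hd (Finset.subset_sdiff.1 h).2
          rw [if_neg hc, if_neg hs']
      · have he : Y.pend x (s + 1) = Y.pend x s := by
          ext U
          simp only [pend, Finset.mem_filter, Finset.mem_univ, true_and]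
          refine ⟨fun h => by omega, fun h => ?_⟩
          rcases h.lt_or_eq with h' | h'
          · omega
          · exact absurd (h' ▸ Y.hit_slotOf x U) hh
        rw [ih, he, gone_full_succ, if_neg fun h => hh h.1]
  have he : Y.pend x (Y.M * Y.N) = ∅ := by
    simp only [pend, Finset.filter_eq_empty_iff, not_le]
    exact fun T _ => Y.slotOf_lt x T
  rw [key (Y.M * Y.N), he, greedy_empty]

lemma slot_le_iff {x : Y.Labels} (hx : Function.Injective x) (A B : Fin Y.N) :
    Y.slotOf x A ≤ Y.slotOf x B ↔ (x A : ℕ) ≤ x B := by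
  simp only [slotOf]
  have hA := A.2
  have hB := B.2
  rcases lt_trichotomy (x A : ℕ) (x B) with h | h | h
  · have h' : ((x A : ℕ) + 1) * Y.N ≤ (x B : ℕ) * Y.N := Nat.mul_le_mul_right _ h
    rw [add_one_mul] at h'
    constructor <;> intro <;> omega
  · obtain rfl := hx (Fin.ext h)
    exact ⟨fun _ => le_rfl, fun _ => le_rfl⟩
  · have h' : ((x B : ℕ) + 1) * Y.N ≤ (x A : ℕ) * Y.N := Nat.mul_le_mul_right _ h
    rw [add_one_mul] at h'
    constructor <;> intro <;> omega

lemma first_comp_swap {S : Finset (Fin Y.N)} {x : Y.Labels} (hx : Function.Injective x)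
    {T U : Fin Y.N} (hT : T ∈ S) (hU : U ∈ S) :
    Y.First S (x ∘ Equiv.swap T U) T ↔ Y.First S x U := by
  have hsw : ∀ W ∈ S, Equiv.swap T U W ∈ S := by
    intro W hW
    rw [Equiv.swap_apply_def]
    split_ifs <;> assumption
  simp only [First, hT, hU, true_and, Y.slot_le_iff hx,
    Y.slot_le_iff (hx.comp (Equiv.injective (Equiv.swap T U))),
    Function.comp_apply, Equiv.swap_apply_left]
  constructor
  · intro h W hW
    simpa using h _ (hsw W hW)
  · intro h W hW
    exact h _ (hsw W hW)

lemma sum_greedy (φ : Finset V → ℝ) (S : Finset (Fin Y.N)) :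
    ∀ (G : Finset V) (w : Y.Labels → ℝ), (∀ x, ¬ Function.Injective x → w x = 0) →
      (∀ x, ∀ T ∈ S, ∀ U ∈ S, w (x ∘ Equiv.swap T U) = w x) →
      ∑ x, w x * Y.greedy x φ S G = (∑ x, w x) * Y.shuffle φ S G := by
  induction S using Finset.strongInduction with
  | _ S ih =>
    intro G w hw hinv
    rcases S.eq_empty_or_nonempty with rfl | hS
    · rw [shuffle, if_pos rfl, Finset.sum_mul]
      simp [greedy_empty]
    have hne : S ≠ ∅ := hS.ne_empty
    set c : Fin Y.N → ℝ := fun T => ∑ x, if Y.First S x T then w x else 0 with hc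
    have hsum : ∑ x, w x * Y.greedy x φ S G =
        ∑ T ∈ S, c T * Y.shuffle φ (S.erase T) (Y.step G T) := by
      have h1 : ∀ x, w x * Y.greedy x φ S G = ∑ T ∈ S,
          (if Y.First S x T then w x else 0) * Y.greedy x φ (S.erase T) (Y.step G T) := by
        intro x
        rw [greedy, if_neg hne, Finset.sum_attach S
          fun T => if Y.First S x T then Y.greedy x φ (S.erase T) (Y.step G T) else 0,
          Finset.mul_sum]
        refine Finset.sum_congr rfl fun T _ => ?_
        split_ifs <;> simp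
      rw [Finset.sum_congr rfl (fun x _ => h1 x), Finset.sum_comm]
      refine Finset.sum_congr rfl fun T hT => ?_
      refine ih _ (Finset.erase_ssubset hT) _ _ (fun x hx => by simp [hw x hx]) ?_
      intro x A hA B hB
      simp only [Finset.mem_erase] at hA hB
      by_cases hx : Function.Injective x
      · have hT' : Equiv.swap A B T = T := Equiv.swap_apply_of_ne_of_ne hA.1.symm hB.1.symm
        rw [hinv x A hA.2 B hB.2]
        refine if_congr ?_ rfl rfl
        rw [First, First]
        refine and_congr_right fun _ => ?_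
        have hsw : ∀ W ∈ S, Equiv.swap A B W ∈ S := by
          intro W hW
          rw [Equiv.swap_apply_def]
          split_ifs
          exacts [hB.2, hA.2, hW]
        have key : ∀ z : Y.Labels, Function.Injective z →
            ((∀ U ∈ S, Y.slotOf z T ≤ Y.slotOf z U) ↔ ∀ U ∈ S, (z T : ℕ) ≤ z U) := by
          intro z hz
          exact forall₂_congr fun U _ => Y.slot_le_iff hz T U
        rw [key x hx, key _ (hx.comp (Equiv.injective _))]
        simp only [Function.comp_apply, hT']
        exact ⟨fun h U hU => by simpa using h _ (hsw U hU), fun h U hU => h _ (hsw U hU)⟩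
      · have : ¬ Function.Injective (x ∘ Equiv.swap A B) := fun h => hx (by
          simpa [Function.comp_assoc] using h.comp (Equiv.injective (Equiv.swap A B)))
        simp [hw x hx, hw _ this]
    have hceq : ∀ T ∈ S, ∀ U ∈ S, c T = c U := by
      intro T hT U hU
      simp only [hc]
      rw [← (Equiv.arrowCongr (Equiv.swap T U) (Equiv.refl (Fin Y.M))).sum_comp]
      refine Finset.sum_congr rfl fun x _ => ?_
      have e : (Equiv.arrowCongr (Equiv.swap T U) (Equiv.refl (Fin Y.M))) x
          = x ∘ Equiv.swap T U := by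
        ext W; simp [Equiv.arrowCongr, Equiv.symm_swap]
      rw [e, hinv x T hT U hU]
      by_cases hx : Function.Injective x
      · exact if_congr (Y.first_comp_swap hx hT hU) rfl rfl
      · simp [hw x hx]
    have htot : ∑ T ∈ S, c T = ∑ x, w x := by
      simp only [hc]
      rw [Finset.sum_comm]
      refine Finset.sum_congr rfl fun x _ => ?_
      obtain ⟨T, hT, hmin⟩ := S.exists_min_image (Y.slotOf x) hS
      rw [Finset.sum_eq_single T, if_pos ⟨hT, hmin⟩]
      · exact fun U _ hU => if_neg fun h => hU (Y.first_unique h ⟨hT, hmin⟩)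
      · exact fun h => absurd hT h
    obtain ⟨T₀, hT₀⟩ := hS
    have hconst : ∀ T ∈ S, c T = c T₀ := fun T hT => hceq T hT T₀ hT₀
    rw [hsum, shuffle, if_neg hne,
      Finset.sum_attach S fun T => Y.shuffle φ (S.erase T) (Y.step G T), ← htot,
      Finset.sum_congr rfl hconst, Finset.sum_const, nsmul_eq_mul,
      Finset.sum_congr rfl (fun T hT => by rw [hconst T hT]), ← Finset.mul_sum]
    have : (0 : ℝ) < S.card := by exact_mod_cast Finset.card_pos.2 ⟨T₀, hT₀⟩
    field_simp

/-- The indicator that no two triangles share a label. -/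
noncomputable def injInd (x : Y.Labels) : ℝ := if Function.Injective x then 1 else 0

lemma card_not_injective :
    ((Finset.univ.filter fun x : Y.Labels => ¬ Function.Injective x).card : ℝ) / (Y.M : ℝ) ^ Y.N
      ≤ (Y.N : ℝ) ^ 2 / Y.M := by
  set P := Finset.univ.filter fun p : Fin Y.N × Fin Y.N => p.1 ≠ p.2
  have hsub : (Finset.univ.filter fun x : Y.Labels => ¬ Function.Injective x) ⊆
      P.biUnion fun p => Finset.univ.filter fun x : Y.Labels => x p.1 = x p.2 := by
    intro x hx
    simp only [Finset.mem_filter, Function.Injective, not_forall] at hx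
    obtain ⟨-, a, b, hab, hne⟩ := hx
    simp only [P, Finset.mem_biUnion, Finset.mem_filter, Finset.mem_univ, true_and]
    exact ⟨(a, b), hne, hab⟩
  have hone : ∀ p ∈ P, (Finset.univ.filter fun x : Y.Labels => x p.1 = x p.2).card
      ≤ Y.M ^ (Y.N - 1) := by
    intro p hp
    have hne : p.1 ≠ p.2 := (Finset.mem_filter.1 hp).2
    refine (Finset.card_le_card_of_injOn (fun x => fun W : {W // W ≠ p.2} => x W.1)
      (fun _ _ => Finset.mem_univ _) ?_).trans (le_of_eq ?_)
    · intro x hx y hy h
      simp only [Finset.coe_filter, Finset.mem_univ, true_and, Set.mem_ofPred_eq] at hx hy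
      funext W
      by_cases hW : W = p.2
      · subst hW
        rw [← hx, ← hy]
        exact congrFun h ⟨p.1, hne⟩
      · exact congrFun h ⟨W, hW⟩
    · simp [Fintype.card_subtype_compl]
  have hcard := ((Finset.card_le_card hsub).trans Finset.card_biUnion_le).trans
    (Finset.sum_le_card_nsmul _ _ _ hone)
  have hP : P.card ≤ Y.N ^ 2 :=
    (Finset.card_filter_le _ _).trans (le_of_eq (by simp [sq]))
  have h : (Finset.univ.filter fun x : Y.Labels => ¬ Function.Injective x).card
      ≤ Y.N ^ 2 * Y.M ^ (Y.N - 1) := by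
    refine hcard.trans ?_
    rw [smul_eq_mul]
    exact Nat.mul_le_mul_right _ hP
  have hM : (0 : ℝ) < Y.M := by exact_mod_cast Y.hM
  rw [div_le_div_iff₀ (by positivity) hM]
  calc _ ≤ ((Y.N ^ 2 * Y.M ^ (Y.N - 1) : ℕ) : ℝ) * Y.M :=
        mul_le_mul_of_nonneg_right (by exact_mod_cast h) hM.le
    _ = (Y.N : ℝ) ^ 2 * (Y.M : ℝ) ^ Y.N := by
        push_cast
        rw [mul_assoc, ← pow_succ, Nat.sub_add_cancel Y.hN]

/-- Averaging over all labellings is within `2 B N^2 / M` of the shuffled greedy value. -/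
theorem abs_avg_sub_shuffle {G : Finset V} (hG : ∀ T, Y.ed T ⊆ G) {φ : Finset V → ℝ} {B : ℝ}
    (hφ : ∀ H, |φ H| ≤ B) (hS : |Y.shuffle φ Finset.univ G| ≤ B) :
    |Y.shuffle φ Finset.univ G
      - (∑ x : Y.Labels, φ (G \ Y.gone Y.full x (Y.M * Y.N))) / (Y.M : ℝ) ^ Y.N|
      ≤ 2 * B * ((Y.N : ℝ) ^ 2 / Y.M) := by
  have hB : 0 ≤ B := (abs_nonneg _).trans hS
  have hM : (0 : ℝ) < Y.M := by exact_mod_cast Y.hM
  have key := Y.sum_greedy φ Finset.univ G Y.injInd (fun x hx => by simp [injInd, hx])
    (fun x T _ U _ => by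
      simp only [injInd]
      exact if_congr (Function.Injective.of_comp_iff' x (Equiv.bijective (Equiv.swap T U))) rfl rfl)
  simp only [Y.greedy_eq_gone hG] at key
  set a := Y.shuffle φ Finset.univ G
  have hdiff : a * (Y.M : ℝ) ^ Y.N - ∑ x : Y.Labels, φ (G \ Y.gone Y.full x (Y.M * Y.N))
      = ∑ x ∈ Finset.univ.filter (fun x : Y.Labels => ¬ Function.Injective x),
          (a - φ (G \ Y.gone Y.full x (Y.M * Y.N))) := by
    have h1 : a * (Y.M : ℝ) ^ Y.N = ∑ _x : Y.Labels, a := by
      simp [Finset.card_univ, mul_comm]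
    rw [h1, ← Finset.sum_sub_distrib, Finset.sum_filter]
    have h2 : ∑ x : Y.Labels, Y.injInd x * (a - φ (G \ Y.gone Y.full x (Y.M * Y.N))) = 0 := by
      simp only [mul_sub, Finset.sum_sub_distrib, key, ← Finset.sum_mul, sub_self]
    calc ∑ x : Y.Labels, (a - φ (G \ Y.gone Y.full x (Y.M * Y.N)))
        = ∑ x : Y.Labels, (a - φ (G \ Y.gone Y.full x (Y.M * Y.N)))
          - ∑ x : Y.Labels, Y.injInd x * (a - φ (G \ Y.gone Y.full x (Y.M * Y.N))) := by
          rw [h2, sub_zero]
      _ = _ := by
          rw [← Finset.sum_sub_distrib]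
          refine Finset.sum_congr rfl fun x _ => ?_
          simp only [injInd]
          split_ifs <;> ring
  have hb := Y.card_not_injective
  rw [div_le_iff₀ (by positivity)] at hb
  calc _ = |a * (Y.M : ℝ) ^ Y.N - ∑ x : Y.Labels, φ (G \ Y.gone Y.full x (Y.M * Y.N))|
        / (Y.M : ℝ) ^ Y.N := by
        rw [← abs_of_pos (pow_pos hM Y.N), ← abs_div, abs_of_pos (pow_pos hM Y.N), sub_div,
          mul_div_assoc, div_self (pow_pos hM Y.N).ne', mul_one]
    _ ≤ _ := by
        rw [div_le_iff₀ (by positivity), hdiff]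
        refine ((Finset.abs_sum_le_sum_abs _ _).trans
          (Finset.sum_le_card_nsmul _ _ (2 * B) fun x _ => ?_)).trans ?_
        · exact (abs_sub _ _).trans (by linarith [hφ (G \ Y.gone Y.full x (Y.M * Y.N))])
        · rw [nsmul_eq_mul, mul_comm, mul_assoc (2 * B)]
          exact mul_le_mul_of_nonneg_left hb (by positivity)

lemma gone_eq_of_no_hit {x : Y.Labels} {a b : ℕ} (hab : a ≤ b)
    (h : ∀ j, a ≤ j → j < b → ¬ Y.Hit x j) : Y.gone Y.full x b = Y.gone Y.full x a := by
  induction b, hab using Nat.le_induction with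
  | base => rfl
  | succ b hab ih =>
    rw [gone_full_succ, if_neg fun hh => h b hab (Nat.lt_succ_self b) hh.1]
    exact ih fun j h1 h2 => h j h1 (by omega)

lemma layer_hit {x : Y.Labels} {k j : ℕ} (h1 : k * Y.N ≤ j) (h2 : j < (k + 1) * Y.N)
    (h : Y.Hit x j) : (x (Y.tr j) : ℕ) = k := by
  rw [h]
  exact Nat.div_eq_of_lt_le h1 h2

lemma gone_layer {x : Y.Labels} (hx : Function.Injective x) {k : ℕ} (T : Fin Y.N)
    (hT : (x T : ℕ) = k) : Y.gone Y.full x ((k + 1) * Y.N) =
      if Disjoint (Y.ed T) (Y.gone Y.full x (k * Y.N)) then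
        Y.gone Y.full x (k * Y.N) ∪ Y.ed T else Y.gone Y.full x (k * Y.N) := by
  have hs : Y.slotOf x T = k * Y.N + T := by simp [slotOf, hT]
  have hlt : k * Y.N + (T : ℕ) < (k + 1) * Y.N := by rw [add_one_mul]; omega
  have only : ∀ j, k * Y.N ≤ j → j < (k + 1) * Y.N → Y.Hit x j → j = k * Y.N + T := by
    intro j h1 h2 h
    have : Y.tr j = T := hx (Fin.ext (by rw [Y.layer_hit h1 h2 h, hT]))
    rw [← hs, ← this, Y.slotOf_of_hit h]
  rw [Y.gone_eq_of_no_hit (a := k * Y.N + T + 1) hlt fun j h1 h2 h => by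
      have := only j (by omega) h2 h
      omega,
    gone_full_succ, Y.gone_eq_of_no_hit (a := k * Y.N) (Nat.le_add_right _ _) fun j h1 h2 h => by
      have := only j h1 (by omega) h
      omega]
  have hhit : Y.Hit x (k * Y.N + T) := hs ▸ Y.hit_slotOf x T
  have he : Y.eds (k * Y.N + T) = Y.ed T := by rw [eds, ← hs, Y.tr_slotOf]
  rw [he]
  exact if_congr ⟨fun h => h.2, fun h => ⟨hhit, h⟩⟩ rfl rfl

lemma gone_equivariant (π : V ≃ V) (τ : Fin Y.N ≃ Fin Y.N)
    (hτ : ∀ T, Y.ed (τ T) = (Y.ed T).map π.toEmbedding) {x : Y.Labels}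
    (hx : Function.Injective x) (k : ℕ) :
    Y.gone Y.full (x ∘ τ.symm) (k * Y.N) = (Y.gone Y.full x (k * Y.N)).map π.toEmbedding := by
  induction k with
  | zero => simp [gone_zero]
  | succ k ih =>
    by_cases h : ∃ T, (x T : ℕ) = k
    · obtain ⟨T, hT⟩ := h
      rw [Y.gone_layer (hx.comp τ.symm.injective) (τ T) (by simp [hT]), Y.gone_layer hx T hT, ih,
        hτ T]
      by_cases hd : Disjoint (Y.ed T) (Y.gone Y.full x (k * Y.N))
      · rw [if_pos hd, if_pos ((Finset.disjoint_map _).2 hd), Finset.map_union]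
      · rw [if_neg hd, if_neg fun h => hd ((Finset.disjoint_map _).1 h)]
    · have hn : ∀ z : Y.Labels, (∀ T, (z T : ℕ) ≠ k) →
          Y.gone Y.full z ((k + 1) * Y.N) = Y.gone Y.full z (k * Y.N) := fun z hz =>
        Y.gone_eq_of_no_hit (Nat.mul_le_mul_right _ (Nat.le_succ k))
          fun j h1 h2 hh => hz _ (Y.layer_hit h1 h2 hh)
      rw [hn (x ∘ τ.symm) fun T hT => h ⟨_, hT⟩, hn x fun T hT => h ⟨T, hT⟩, ih]

/-- A symmetry of the triangles moves configurations at label boundaries at cost `N^2 / M`. -/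
theorem abs_pr_sub_perm (π : V ≃ V) (τ : Fin Y.N ≃ Fin Y.N)
    (hτ : ∀ T, Y.ed (τ T) = (Y.ed T).map π.toEmbedding) (c : V → ℕ) :
    |Y.pr Y.full (fun g => c g * Y.N) - Y.pr Y.full (fun g => c (π g) * Y.N)|
      ≤ (Y.N : ℝ) ^ 2 / Y.M := by
  have hM : (0 : ℝ) < (Y.M : ℝ) ^ Y.N := pow_pos (by exact_mod_cast Y.hM) _
  set e := Equiv.arrowCongr τ (Equiv.refl (Fin Y.M)) with he
  have hiff : ∀ x : Y.Labels, Function.Injective x →
      (Y.Ok Y.full (e x) (fun g => c g * Y.N) ↔ Y.Ok Y.full x (fun g => c (π g) * Y.N)) := by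
    intro x hx
    have ex : e x = x ∘ τ.symm := by ext W; simp [he, Equiv.arrowCongr]
    simp only [Ok, ex, Y.gone_equivariant π τ hτ hx]
    constructor
    · intro h g
      simpa using h (π g)
    · intro h g
      have := h (π.symm g)
      simp only [Equiv.apply_symm_apply] at this
      intro hg
      rw [Finset.mem_map] at hg
      obtain ⟨a, ha, rfl⟩ := hg
      exact this (by simpa using ha)
  simp only [pr]
  rw [← e.sum_comp, ← sub_div, ← Finset.sum_sub_distrib, abs_div, abs_of_pos hM]
  refine le_trans ?_ Y.card_not_injective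
  refine div_le_div_of_nonneg_right ((Finset.abs_sum_le_sum_abs _ _).trans ?_) hM.le
  rw [Finset.card_filter, Nat.cast_sum]
  refine Finset.sum_le_sum fun x _ => ?_
  by_cases hx : Function.Injective x
  · simp [hiff x hx, hx]
  · simp only [hx, not_false_eq_true, if_true, Nat.cast_one]
    split_ifs <;> simp

end Sys

section Triangles

variable {n : ℕ}

/-- An enumeration of the triangles of `K_n`. -/
noncomputable def triEnum (n : ℕ) : Fin (n.choose 3) ≃ {T : Finset (Fin n) // T.card = 3} :=
  (Fintype.equivFinOfCardEq (by simp [Fintype.card_finset_len])).symm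

/-- The triangle system of `K_n` with `M` labels. -/
noncomputable abbrev triSys (n M : ℕ) (hn : 3 ≤ n) (hM : 0 < M) : Sys (Sym2 (Fin n)) where
  N := n.choose 3
  M := M
  ed i := edgesOf (triEnum n i).1
  hN := Nat.choose_pos hn
  hM := hM

variable {M : ℕ} (hn : 3 ≤ n) (hM : 0 < M)

lemma triSys_ed_subset (T : Fin (triSys n M hn hM).N) :
    (triSys n M hn hM).ed T ⊆ completeEdges n := by
  intro e he
  simp only [edgesOf, Finset.mem_filter] at he
  simp [completeEdges, he.2]

lemma mem_triangles {G : Finset (Sym2 (Fin n))} {T : Finset (Fin n)} :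
    T ∈ triangles G ↔ T.card = 3 ∧ edgesOf T ⊆ G := by
  simp [triangles]

lemma shuffle_eq_Ev (φ : Finset (Sym2 (Fin n)) → ℝ) :
    ∀ (S : Finset (Fin (triSys n M hn hM).N)) (G : Finset (Sym2 (Fin n))),
      (∀ i, (triSys n M hn hM).ed i ⊆ G → i ∈ S) →
      (triSys n M hn hM).shuffle φ S G = Ev φ G := by
  intro S
  induction S using Finset.strongInduction with
  | _ S ih =>
    intro G hS
    rcases S.eq_empty_or_nonempty with rfl | hne
    · rw [Sys.shuffle, if_pos rfl, Ev_of_empty]
      rw [Finset.eq_empty_iff_forall_notMem]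
      intro T hT
      rw [mem_triangles] at hT
      exact Finset.notMem_empty _ (hS ((triEnum n).symm ⟨T, hT.1⟩) (by simpa using hT.2))
    rw [Sys.shuffle, if_neg hne.ne_empty, Finset.sum_attach S
      fun T => (triSys n M hn hM).shuffle φ (S.erase T) ((triSys n M hn hM).step G T)]
    have hstep : ∀ i ∈ S, (triSys n M hn hM).shuffle φ (S.erase i) ((triSys n M hn hM).step G i) =
        if edgesOf (triEnum n i).1 ⊆ G then Ev φ (G \ edgesOf (triEnum n i).1) else Ev φ G := by
      intro i hi
      simp only [Sys.step]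
      split_ifs with h
      · have hh : ∀ j, (triSys n M hn hM).ed j ⊆ G \ edgesOf (triEnum n i).1 → j ∈ S.erase i := by
          intro j hj
          refine Finset.mem_erase.2 ⟨?_, hS j (subset_trans hj Finset.sdiff_subset)⟩
          rintro rfl
          obtain ⟨g, hg⟩ := edgesOf_nonempty (triEnum n j).2
          exact (Finset.mem_sdiff.1 (hj hg)).2 hg
        refine Eq.trans ?_ (ih _ (Finset.erase_ssubset hi) _ hh)
        refine congrArg _ (Finset.ext fun x => ?_)
        simp only [Finset.mem_sdiff]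
      · refine ih _ (Finset.erase_ssubset hi) _ fun j hj => Finset.mem_erase.2 ⟨?_, hS j hj⟩
        rintro rfl
        exact h hj
    rw [Finset.sum_congr rfl hstep, Finset.sum_ite, Finset.sum_const]
    have hmap : (S.filter fun i => edgesOf (triEnum n i).1 ⊆ G).image (fun i => (triEnum n i).1) =
        triangles G := by
      ext T
      simp only [Finset.mem_image, Finset.mem_filter, mem_triangles]
      constructor
      · rintro ⟨i, ⟨-, h⟩, rfl⟩
        exact ⟨(triEnum n i).2, h⟩
      · rintro ⟨h, h'⟩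
        exact ⟨(triEnum n).symm ⟨T, h⟩, ⟨hS _ (by simpa using h'), by simpa using h'⟩, by simp⟩
    have hinj : Function.Injective fun i => (triEnum n i).1 :=
      Subtype.val_injective.comp (triEnum n).injective
    have hsum : ∑ i ∈ S.filter (fun i => edgesOf (triEnum n i).1 ⊆ G),
        Ev φ (G \ edgesOf (triEnum n i).1) = ∑ T ∈ triangles G, Ev φ (G \ edgesOf T) := by
      rw [← hmap, Finset.sum_image hinj.injOn]
    have hcard : (S.filter fun i => edgesOf (triEnum n i).1 ⊆ G).card = (triangles G).card := by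
      rw [← hmap, Finset.card_image_of_injective _ hinj]
    have hc : ((S.filter fun i => edgesOf (triEnum n i).1 ⊆ G).card : ℝ) * Ev φ G =
        ∑ T ∈ triangles G, Ev φ (G \ edgesOf T) := by
      rw [hcard]
      by_cases ht : triangles G = ∅
      · simp [ht]
      · rw [Ev_of_nonempty ht, mul_div_cancel₀ _ (by simp [ht])]
    have hsplit : ((S.filter fun i => edgesOf (triEnum n i).1 ⊆ G).card : ℝ) +
        (S.filter fun i => ¬ edgesOf (triEnum n i).1 ⊆ G).card = S.card := by
      exact_mod_cast S.card_filter_add_card_filter_not _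
    have hpos : (S.card : ℝ) ≠ 0 := by simp [hne.ne_empty]
    rw [hsum, ← hc, nsmul_eq_mul, ← add_mul, hsplit]
    field_simp

/-- The process is the label greedy up to an error of order `N^2 / M`. -/
theorem abs_Ev_sub_avg {φ : Finset (Sym2 (Fin n)) → ℝ} {B : ℝ} (hφ : ∀ G, |φ G| ≤ B) :
    |Ev φ (completeEdges n) -
      (∑ x : (triSys n M hn hM).Labels, φ (completeEdges n \ (triSys n M hn hM).gone
        (triSys n M hn hM).full x ((triSys n M hn hM).M * (triSys n M hn hM).N))) /
        (M : ℝ) ^ (triSys n M hn hM).N|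
      ≤ 2 * B * (((n.choose 3 : ℕ) : ℝ) ^ 2 / M) := by
  have h := shuffle_eq_Ev hn hM φ Finset.univ (completeEdges n) fun i _ => Finset.mem_univ i
  have h' := (triSys n M hn hM).abs_avg_sub_shuffle (triSys_ed_subset hn hM) hφ
    (h ▸ abs_Ev_le hφ _)
  rw [h] at h'
  refine le_trans (le_of_eq ?_) h'
  refine congrArg (fun z => |Ev φ (completeEdges n) - z|) (congrArg (fun z => z / _)
    (Finset.sum_congr rfl fun x _ => congrArg φ (Finset.ext fun e => ?_)))
  simp only [Finset.mem_sdiff]

/-- The action of a vertex permutation on edges. -/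
def edgePerm (σ : Equiv.Perm (Fin n)) : Sym2 (Fin n) ≃ Sym2 (Fin n) where
  toFun := Sym2.map σ
  invFun := Sym2.map σ.symm
  left_inv e := by simp [Sym2.map_map]
  right_inv e := by simp [Sym2.map_map]

@[simp] lemma edgePerm_mk (σ : Equiv.Perm (Fin n)) (a b : Fin n) :
    edgePerm σ s(a, b) = s(σ a, σ b) := rfl

/-- Vertex permutations move configurations at label boundaries at cost `N^2 / M`. -/
theorem abs_pr_sub_edgePerm (σ : Equiv.Perm (Fin n)) (c : Sym2 (Fin n) → ℕ) :
    |(triSys n M hn hM).pr (triSys n M hn hM).full (fun g => c g * (triSys n M hn hM).N)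
      - (triSys n M hn hM).pr (triSys n M hn hM).full
          (fun g => c (edgePerm σ g) * (triSys n M hn hM).N)|
      ≤ ((n.choose 3 : ℕ) : ℝ) ^ 2 / M := by
  let P : {T : Finset (Fin n) // T.card = 3} ≃ {T : Finset (Fin n) // T.card = 3} :=
    { toFun := fun T => ⟨T.1.map σ.toEmbedding, by simp [T.2]⟩
      invFun := fun T => ⟨T.1.map σ.symm.toEmbedding, by simp [T.2]⟩
      left_inv := fun T => Subtype.ext (by ext; simp)
      right_inv := fun T => Subtype.ext (by ext; simp) }
  have hτ : ∀ T, (triSys n M hn hM).ed (((triEnum n).trans (P.trans (triEnum n).symm)) T) =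
      ((triSys n M hn hM).ed T).map (edgePerm σ).toEmbedding := by
    intro T
    ext g
    induction g using Sym2.ind with
    | _ a b =>
      simp [P, edgesOf, Finset.mem_map_equiv, Finset.mem_sym2_iff, edgePerm]
  exact (triSys n M hn hM).abs_pr_sub_perm (edgePerm σ)
    ((triEnum n).trans (P.trans (triEnum n).symm)) hτ c

/-- Any edge is carried to any other by a vertex permutation. -/
lemma exists_edgePerm {g g' : Sym2 (Fin n)} (hg : ¬ g.IsDiag) (hg' : ¬ g'.IsDiag) :
    ∃ σ : Equiv.Perm (Fin n), edgePerm σ g = g' := by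
  induction g using Sym2.ind with
  | _ a b =>
  induction g' using Sym2.ind with
  | _ a' b' =>
    simp only [Sym2.mk_isDiag_iff] at hg hg'
    obtain ⟨σ, hσ⟩ := Equiv.Perm.exists_extending_pair (f := ![a, b]) (g := ![a', b'])
      (by intro i j h; fin_cases i <;> fin_cases j <;> simp_all)
      (by intro i j h; fin_cases i <;> fin_cases j <;> simp_all)
    exact ⟨σ, by simp [show σ a = a' from hσ 0, show σ b = b' from hσ 1]⟩

/-- All edges are present up to a label boundary with the same probability, up to `N^2 / M`. -/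
theorem abs_pr_single_sub {g g' : Sym2 (Fin n)} (hg : ¬ g.IsDiag) (hg' : ¬ g'.IsDiag) (k : ℕ) :
    |(triSys n M hn hM).pr (triSys n M hn hM).full
        (Sys.addE (fun _ => 0) g' (k * (triSys n M hn hM).N))
      - (triSys n M hn hM).pr (triSys n M hn hM).full
        (Sys.addE (fun _ => 0) g (k * (triSys n M hn hM).N))|
      ≤ ((n.choose 3 : ℕ) : ℝ) ^ 2 / M := by
  obtain ⟨σ, hσ⟩ := exists_edgePerm hg hg'
  have h := abs_pr_sub_edgePerm hn hM σ fun e => if e = g' then k else 0
  convert h using 3
  all_goals first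
    | rfl
    | (congr 1; funext e; simp only [Sys.addE, Nat.zero_max]; subst hσ
       simp [(edgePerm σ).injective.eq_iff, apply_ite (· * (triSys n M hn hM).N)])

/-- The same for a pair of edges moved by a vertex permutation. -/
theorem abs_pr_pair_sub (σ : Equiv.Perm (Fin n)) (g f : Sym2 (Fin n)) (k : ℕ) :
    |(triSys n M hn hM).pr (triSys n M hn hM).full (Sys.addE
        (Sys.addE (fun _ => 0) (edgePerm σ g) (k * (triSys n M hn hM).N))
        (edgePerm σ f) (k * (triSys n M hn hM).N))
      - (triSys n M hn hM).pr (triSys n M hn hM).full (Sys.addE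
        (Sys.addE (fun _ => 0) g (k * (triSys n M hn hM).N))
        f (k * (triSys n M hn hM).N))|
      ≤ ((n.choose 3 : ℕ) : ℝ) ^ 2 / M := by
  have h := abs_pr_sub_edgePerm hn hM σ
    fun e => if e = edgePerm σ f ∨ e = edgePerm σ g then k else 0
  convert h using 3
  all_goals
    congr 1; funext e
    simp only [Sys.addE, Nat.zero_max, (edgePerm σ).injective.eq_iff]
    split_ifs <;> simp_all

end Triangles

/-- The mean number of edges left by random triangle removal from `K_n`. -/
noncomputable def meanLeave (n : ℕ) : ℝ :=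
  Ev (fun G => (G.card : ℝ)) (completeEdges n)

/-- The probability that the number of edges left satisfies `P`. -/
noncomputable def leaveProb (n : ℕ) (P : ℕ → Prop) : ℝ :=
  Ev (fun G => if P G.card then 1 else 0) (completeEdges n)

lemma abs_card_le (n : ℕ) (G : Finset (Sym2 (Fin n))) : |(G.card : ℝ)| ≤ (n : ℝ) ^ 2 := by
  rw [Nat.abs_cast]
  have h : G.card ≤ n ^ 2 := (Finset.card_le_univ G).trans (by
    rw [Sym2.card, Fintype.card_fin, Nat.choose_two_right]
    refine Nat.div_le_of_le_mul ?_
    rcases n with _ | n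
    · simp
    · simp only [Nat.add_sub_cancel]; nlinarith)
  exact_mod_cast h

end Vale.Agent.P046
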